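import Crest.Agent.N222.F.Defs
import Crest.Agent.N222.B.Defs2
import Crest.Agent.N222.F.Res
import Crest.Agent.N222.F.Lip

-- ▼ part N222/L/Ul
section

/-!
# Row 222, limit block (helper18): uniform convergence along an ultrafilter, `C²` convergence
-/

set_option autoImplicit false
open MeasureTheory Set Filter Topology Function Metric
open scoped ContDiff InnerProductSpace RealInnerProductSpace

noncomputable section

namespace Crest.Agent.N222.Lm

/-- uniform convergence on a relatively compact set = convergence along all convergent sequences -/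
theorem tuo_of_seq {α β : Type} [TopologicalSpace α] [PseudoMetricSpace β] (𝒰 : Ultrafilter ℕ)
    {F : ℕ → α → β} {f : α → β} {s K : Set α} (hK : IsCompact K) (hs : s ⊆ K)
    (hf : ContinuousOn f K)
    (h : ∀ (z : ℕ → α) (z0 : α), (∀ᶠ j in (𝒰 : Filter ℕ), z j ∈ s) → z0 ∈ K → Tendsto z 𝒰 (𝓝 z0) →
      Tendsto (fun j => F j (z j)) 𝒰 (𝓝 (f z0))) : TendstoUniformlyOn F f 𝒰 s := by
  classical
  rw [Metric.tendstoUniformlyOn_iff]
  intro ε hε
  by_contra hne
  have h1 : ∀ᶠ j in (𝒰 : Filter ℕ), ∃ z ∈ s, ε ≤ dist (f z) (F j z) := by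
    have := Ultrafilter.eventually_not.2 hne
    filter_upwards [this] with j hj
    push Not at hj
    exact hj
  obtain ⟨j0, a, ha, -⟩ := h1.exists
  let z : ℕ → α := fun j => if hj : ∃ z ∈ s, ε ≤ dist (f z) (F j z) then hj.choose else a
  have hzs : ∀ j, z j ∈ s := by
    intro j
    by_cases hj : ∃ z ∈ s, ε ≤ dist (f z) (F j z)
    · simp only [z, dif_pos hj]; exact hj.choose_spec.1
    · simp only [z, dif_neg hj]; exact ha
  have hze : ∀ᶠ j in (𝒰 : Filter ℕ), ε ≤ dist (f (z j)) (F j (z j)) := by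
    filter_upwards [h1] with j hj
    simp only [z, dif_pos hj]; exact hj.choose_spec.2
  have hle : (𝒰.map z : Filter α) ≤ 𝓟 K := by
    rw [Filter.le_principal_iff]
    exact Filter.mem_map.2 (Filter.Eventually.of_forall fun j => hs (hzs j))
  obtain ⟨z0, hz0, hlim⟩ := hK.ultrafilter_le_nhds (𝒰.map z) hle
  have ht : Tendsto z 𝒰 (𝓝 z0) := hlim
  have h2 := h z z0 (Filter.Eventually.of_forall hzs) hz0 ht
  have h3 : Tendsto (fun j => f (z j)) 𝒰 (𝓝 (f z0)) :=
    (hf z0 hz0).tendsto.comp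
      (tendsto_nhdsWithin_iff.2 ⟨ht, Filter.Eventually.of_forall fun j => hs (hzs j)⟩)
  have h4 := h3.dist h2
  rw [dist_self] at h4
  have := ge_of_tendsto h4 hze
  linarith

theorem seq_of_tuo {α β : Type} [TopologicalSpace α] [PseudoMetricSpace β] {l : Filter ℕ}
    {F : ℕ → α → β} {f : α → β} {s : Set α} (h : TendstoUniformlyOn F f l s) {z : ℕ → α} {z0 : α}
    (hf : ContinuousAt f z0) (hz : ∀ᶠ j in l, z j ∈ s) (hz0 : Tendsto z l (𝓝 z0)) :
    Tendsto (fun j => F j (z j)) l (𝓝 (f z0)) :=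
  h.tendsto_comp hf.continuousWithinAt (tendsto_nhdsWithin_iff.2 ⟨hz0, hz⟩)

/-- integrals over a set of finite measure -/
theorem tendsto_setIntegral_of_tuo {α : Type} [MeasurableSpace α] {μ : Measure α} {l : Filter ℕ}
    {F : ℕ → α → ℝ} {f : α → ℝ} {s : Set α} (hs : MeasurableSet s) (hμ : μ s ≠ ⊤)
    (h : TendstoUniformlyOn F f l s) (hF : ∀ᶠ j in l, IntegrableOn (F j) s μ)
    (hf : IntegrableOn f s μ) :
    Tendsto (fun j => ∫ z in s, F j z ∂μ) l (𝓝 (∫ z in s, f z ∂μ)) := by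
  rw [Metric.tendsto_nhds]
  intro ε hε
  have hM : 0 ≤ μ.real s := measureReal_nonneg
  have hδ : 0 < ε / (μ.real s + 1) := by positivity
  filter_upwards [Metric.tendstoUniformlyOn_iff.1 h _ hδ, hF] with j hj hFj
  rw [dist_eq_norm, ← integral_sub hFj hf]
  have hb : ‖∫ z in s, (F j z - f z) ∂μ‖ ≤ ε / (μ.real s + 1) * μ.real s := by
    refine norm_setIntegral_le_of_norm_le_const (lt_top_iff_ne_top.2 hμ) fun z hz => ?_
    rw [← dist_eq_norm, dist_comm]
    exact (hj z hz).le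
  refine hb.trans_lt ?_
  rw [div_mul_eq_mul_div, div_lt_iff₀ (by positivity)]
  nlinarith

variable {V W Z : Type} [NormedAddCommGroup V] [NormedSpace ℝ V] [NormedAddCommGroup W]
  [NormedSpace ℝ W] [NormedAddCommGroup Z] [NormedSpace ℝ Z]

/-- uniform convergence of the 2-jets -/
structure C2 (F : ℕ → V → W) (f : V → W) (l : Filter ℕ) (s : Set V) : Prop where
  c0 : TendstoUniformlyOn F f l s
  c1 : TendstoUniformlyOn (fun j => fderiv ℝ (F j)) (fderiv ℝ f) l s
  c2 : TendstoUniformlyOn (fun j => fderiv ℝ (fderiv ℝ (F j))) (fderiv ℝ (fderiv ℝ f)) l s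

theorem tuo_iff_of_dist {α β γ : Type} [PseudoMetricSpace β] [PseudoMetricSpace γ] {l : Filter ℕ}
    {F : ℕ → α → β} {f : α → β} {G : ℕ → α → γ} {g : α → γ} {s : Set α}
    (h : ∀ j z, dist (f z) (F j z) = dist (g z) (G j z)) :
    TendstoUniformlyOn F f l s ↔ TendstoUniformlyOn G g l s := by
  simp only [Metric.tendstoUniformlyOn_iff, h]

theorem dist_iter_zero (f g : V → W) (z : V) :
    dist (iteratedFDeriv ℝ 0 f z) (iteratedFDeriv ℝ 0 g z) = dist (f z) (g z) := by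
  simp only [iteratedFDeriv_zero_eq_comp, Function.comp_apply]
  exact LinearIsometryEquiv.dist_map _ _ _

theorem dist_iter_succ (n : ℕ) (f g : V → W) (z : V) :
    dist (iteratedFDeriv ℝ (n + 1) f z) (iteratedFDeriv ℝ (n + 1) g z) =
      dist (iteratedFDeriv ℝ n (fderiv ℝ f) z) (iteratedFDeriv ℝ n (fderiv ℝ g) z) := by
  simp only [iteratedFDeriv_succ_eq_comp_right, Function.comp_apply]
  exact LinearIsometryEquiv.dist_map _ _ _

theorem c2_iff {F : ℕ → V → W} {f : V → W} {l : Filter ℕ} {s : Set V} : C2 F f l s ↔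
    ∀ k ≤ 2, TendstoUniformlyOn (fun j => iteratedFDeriv ℝ k (F j)) (iteratedFDeriv ℝ k f) l s := by
  have e0 : TendstoUniformlyOn (fun j => iteratedFDeriv ℝ 0 (F j)) (iteratedFDeriv ℝ 0 f) l s ↔
      TendstoUniformlyOn F f l s := tuo_iff_of_dist fun j z => dist_iter_zero _ _ _
  have e1 : TendstoUniformlyOn (fun j => iteratedFDeriv ℝ 1 (F j)) (iteratedFDeriv ℝ 1 f) l s ↔
      TendstoUniformlyOn (fun j => fderiv ℝ (F j)) (fderiv ℝ f) l s :=
    tuo_iff_of_dist fun j z => (dist_iter_succ 0 _ _ _).trans (dist_iter_zero _ _ _)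
  have e2 : TendstoUniformlyOn (fun j => iteratedFDeriv ℝ 2 (F j)) (iteratedFDeriv ℝ 2 f) l s ↔
      TendstoUniformlyOn (fun j => fderiv ℝ (fderiv ℝ (F j))) (fderiv ℝ (fderiv ℝ f)) l s :=
    tuo_iff_of_dist fun j z =>
      (dist_iter_succ 1 _ _ _).trans ((dist_iter_succ 0 _ _ _).trans (dist_iter_zero _ _ _))
  constructor
  · intro h k hk
    interval_cases k
    · exact e0.2 h.c0
    · exact e1.2 h.c1
    · exact e2.2 h.c2
  · intro h
    exact ⟨e0.1 (h 0 (by norm_num)), e1.1 (h 1 (by norm_num)), e2.1 (h 2 le_rfl)⟩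

theorem C2.mono {F : ℕ → V → W} {f : V → W} {l : Filter ℕ} {s s' : Set V} (h : C2 F f l s)
    (hs : s' ⊆ s) : C2 F f l s' := ⟨h.c0.mono hs, h.c1.mono hs, h.c2.mono hs⟩

theorem eqOn_fderiv_open {f f' : V → W} {s : Set V} (hs : IsOpen s) (hf : EqOn f f' s) :
    EqOn (fderiv ℝ f) (fderiv ℝ f') s := fun _ hz =>
  (hf.eventuallyEq_of_mem (hs.mem_nhds hz)).fderiv_eq

theorem C2.congr {F F' : ℕ → V → W} {f f' : V → W} {l : Filter ℕ} {s : Set V} (h : C2 F f l s)
    (hs : IsOpen s) (hF : ∀ᶠ j in l, EqOn (F j) (F' j) s) (hf : EqOn f f' s) : C2 F' f' l s :=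
  ⟨(h.c0.congr hF).congr_right hf,
    (h.c1.congr (hF.mono fun _ hj => eqOn_fderiv_open hs hj)).congr_right
      (eqOn_fderiv_open hs hf),
    (h.c2.congr (hF.mono fun _ hj => eqOn_fderiv_open hs (eqOn_fderiv_open hs hj))).congr_right
      (eqOn_fderiv_open hs (eqOn_fderiv_open hs hf))⟩

/-- first derivative of `z ↦ φ (z, G z)` as a function of the jets -/
def jet1 (A : V × W →L[ℝ] Z) (P : V →L[ℝ] W) : V →L[ℝ] Z :=
  A ∘L (ContinuousLinearMap.inl ℝ V W + ContinuousLinearMap.inr ℝ V W ∘L P)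

/-- second derivative of `z ↦ φ (z, G z)` as a function of the jets -/
def jet2 (A : V × W →L[ℝ] Z) (B : V × W →L[ℝ] V × W →L[ℝ] Z) (P : V →L[ℝ] W)
    (Q : V →L[ℝ] V →L[ℝ] W) : V →L[ℝ] V →L[ℝ] Z :=
  ((ContinuousLinearMap.compL ℝ V (V × W) Z).flip
      (ContinuousLinearMap.inl ℝ V W + ContinuousLinearMap.inr ℝ V W ∘L P)) ∘L
    (B ∘L (ContinuousLinearMap.inl ℝ V W + ContinuousLinearMap.inr ℝ V W ∘L P)) +
  (ContinuousLinearMap.compL ℝ V W Z (A ∘L ContinuousLinearMap.inr ℝ V W)) ∘L Q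

theorem continuous_jet1 :
    Continuous fun q : (V × W →L[ℝ] Z) × (V →L[ℝ] W) => jet1 q.1 q.2 := by
  unfold jet1
  exact continuous_fst.clm_comp (continuous_const.add (continuous_const.clm_comp continuous_snd))

theorem continuous_jet2 :
    Continuous fun q : ((V × W →L[ℝ] Z) × (V × W →L[ℝ] V × W →L[ℝ] Z)) ×
      ((V →L[ℝ] W) × (V →L[ℝ] V →L[ℝ] W)) => jet2 q.1.1 q.1.2 q.2.1 q.2.2 := by
  unfold jet2
  have hT : Continuous fun q : ((V × W →L[ℝ] Z) × (V × W →L[ℝ] V × W →L[ℝ] Z)) ×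
      ((V →L[ℝ] W) × (V →L[ℝ] V →L[ℝ] W)) =>
      ContinuousLinearMap.inl ℝ V W + ContinuousLinearMap.inr ℝ V W ∘L q.2.1 :=
    continuous_const.add (continuous_const.clm_comp (continuous_fst.comp continuous_snd))
  refine Continuous.add ?_ ?_
  · exact ((ContinuousLinearMap.continuous _).comp hT).clm_comp
      ((continuous_snd.comp continuous_fst).clm_comp hT)
  · exact ((ContinuousLinearMap.continuous _).comp
      ((continuous_fst.comp continuous_fst).clm_comp continuous_const)).clm_comp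
      (continuous_snd.comp continuous_snd)

theorem hasFDerivAt_pair {G : V → W} {P : V →L[ℝ] W} {z : V} (hG : HasFDerivAt G P z) :
    HasFDerivAt (fun y => (y, G y))
      (ContinuousLinearMap.inl ℝ V W + ContinuousLinearMap.inr ℝ V W ∘L P) z := by
  have e : ContinuousLinearMap.inl ℝ V W + ContinuousLinearMap.inr ℝ V W ∘L P =
      (ContinuousLinearMap.id ℝ V).prod P := by
    refine ContinuousLinearMap.ext fun v => ?_
    simp
  rw [e]
  exact (hasFDerivAt_id (𝕜 := ℝ) z).prodMk hG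

theorem fderiv_comp_jet1 {G : V → W} {φ : V × W → Z} {z : V} (hG : DifferentiableAt ℝ G z)
    (hφ : DifferentiableAt ℝ φ (z, G z)) :
    fderiv ℝ (fun y => φ (y, G y)) z = jet1 (fderiv ℝ φ (z, G z)) (fderiv ℝ G z) :=
  (HasFDerivAt.comp (g := φ) (f := fun y => (y, G y)) z hφ.hasFDerivAt
    (hasFDerivAt_pair hG.hasFDerivAt)).fderiv

theorem fderiv_comp_jet2 {G : V → W} {φ : V × W → Z} {z : V} (hG : ContDiffAt ℝ 2 G z)
    (hφ : ContDiffAt ℝ 2 φ (z, G z)) :
    fderiv ℝ (fderiv ℝ fun y => φ (y, G y)) z =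
      jet2 (fderiv ℝ φ (z, G z)) (fderiv ℝ (fderiv ℝ φ) (z, G z)) (fderiv ℝ G z)
        (fderiv ℝ (fderiv ℝ G) z) := by
  have hGd : DifferentiableAt ℝ G z := hG.differentiableAt (by norm_num)
  have hp := hasFDerivAt_pair hGd.hasFDerivAt
  have e1 : fderiv ℝ (fun y => φ (y, G y)) =ᶠ[𝓝 z]
      fun y => jet1 (fderiv ℝ φ (y, G y)) (fderiv ℝ G y) := by
    have a1 : ∀ᶠ y in 𝓝 z, ContDiffAt ℝ 2 G y := hG.eventually (by simp)
    have a2 : ∀ᶠ y in 𝓝 z, ContDiffAt ℝ 2 φ (y, G y) :=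
      hp.continuousAt.eventually (hφ.eventually (by simp))
    filter_upwards [a1, a2] with y h1 h2
    exact fderiv_comp_jet1 (h1.differentiableAt (by norm_num)) (h2.differentiableAt (by norm_num))
  rw [e1.fderiv_eq]
  have b1 : DifferentiableAt ℝ (fderiv ℝ φ) (z, G z) :=
    (hφ.fderiv_right (m := 1) (by norm_num)).differentiableAt (by norm_num)
  have b2 : DifferentiableAt ℝ (fderiv ℝ G) z :=
    (hG.fderiv_right (m := 1) (by norm_num)).differentiableAt (by norm_num)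
  have c1 := HasFDerivAt.comp (g := fderiv ℝ φ) (f := fun y => (y, G y)) z b1.hasFDerivAt hp
  have c2 : HasFDerivAt (fun y => ContinuousLinearMap.inl ℝ V W +
      ContinuousLinearMap.inr ℝ V W ∘L fderiv ℝ G y)
      ((ContinuousLinearMap.compL ℝ V W (V × W) (ContinuousLinearMap.inr ℝ V W)) ∘L
        fderiv ℝ (fderiv ℝ G) z) z :=
    (((ContinuousLinearMap.compL ℝ V W (V × W)
      (ContinuousLinearMap.inr ℝ V W)).hasFDerivAt).comp z b2.hasFDerivAt).const_add _
  have c3 := c1.clm_comp c2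
  refine (c3.fderiv).trans ?_
  ext v w
  simp [jet2, add_comm]

/-- `C²` convergence is preserved by maps `z ↦ φ (z, G z)` with `φ` smooth -/
theorem C2.comp {𝒰 : Ultrafilter ℕ} {G : ℕ → V → W} {g : V → W} {s K O : Set V} (h : C2 G g 𝒰 s)
    (hs : IsOpen s) (hK : IsCompact K) (hO : IsOpen O) (hsK : s ⊆ K) (hKO : K ⊆ O)
    (hg : ContDiffOn ℝ ∞ g O) (hG : ∀ᶠ j in (𝒰 : Filter ℕ), ContDiffOn ℝ ∞ (G j) s)
    {φ : V × W → Z} {U : Set (V × W)} (hU : IsOpen U) (hφ : ContDiffOn ℝ ∞ φ U)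
    (hgU : ∀ z ∈ K, (z, g z) ∈ U) :
    C2 (fun j z => φ (z, G j z)) (fun z => φ (z, g z)) 𝒰 s := by
  have h2 : (2 : WithTop ℕ∞) ≤ ∞ := WithTop.coe_le_coe.2 (le_top : (2 : ℕ∞) ≤ ⊤)
  have hgA : ∀ z ∈ K, ContDiffAt ℝ 2 g z := fun z hz =>
    (hg.contDiffAt (hO.mem_nhds (hKO hz))).of_le h2
  have hφA : ∀ q ∈ U, ContDiffAt ℝ 2 φ q := fun q hq => (hφ.contDiffAt (hU.mem_nhds hq)).of_le h2
  have hcA : ∀ z ∈ K, ContDiffAt ℝ 2 (fun y => φ (y, g y)) z := fun z hz =>
    ContDiffAt.comp (g := φ) (f := fun y => (y, g y)) z (hφA _ (hgU z hz))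
      (contDiffAt_id.prodMk (hgA z hz))
  -- convergence of the jets along a convergent sequence
  have key : ∀ (z : ℕ → V) (z0 : V), (∀ᶠ j in (𝒰 : Filter ℕ), z j ∈ s) → z0 ∈ K →
      Tendsto z 𝒰 (𝓝 z0) →
      Tendsto (fun j => (z j, G j (z j))) 𝒰 (𝓝 (z0, g z0)) ∧
      Tendsto (fun j => fderiv ℝ (G j) (z j)) 𝒰 (𝓝 (fderiv ℝ g z0)) ∧
      Tendsto (fun j => fderiv ℝ (fderiv ℝ (G j)) (z j)) 𝒰 (𝓝 (fderiv ℝ (fderiv ℝ g) z0)) ∧
      ∀ᶠ j in (𝒰 : Filter ℕ), ContDiffAt ℝ 2 (G j) (z j) ∧ ContDiffAt ℝ 2 φ (z j, G j (z j)) := by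
    intro z z0 hz hz0 ht
    have t0 := ht.prodMk_nhds (seq_of_tuo h.c0 (hgA z0 hz0).continuousAt hz ht)
    have d1 : ContDiffAt ℝ 1 (fderiv ℝ g) z0 := (hgA z0 hz0).fderiv_right (by norm_num)
    have d2 : ContDiffAt ℝ 0 (fderiv ℝ (fderiv ℝ g)) z0 := d1.fderiv_right (by norm_num)
    refine ⟨t0, seq_of_tuo h.c1 d1.continuousAt hz ht, seq_of_tuo h.c2 d2.continuousAt hz ht, ?_⟩
    filter_upwards [hz, hG, t0.eventually (hU.mem_nhds (hgU z0 hz0))] with j a1 a2 a3
    exact ⟨(a2.contDiffAt (hs.mem_nhds a1)).of_le h2, hφA _ a3⟩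
  refine ⟨?_, ?_, ?_⟩
  · refine tuo_of_seq 𝒰 hK hsK (fun z hz => (hcA z hz).continuousAt.continuousWithinAt) ?_
    intro z z0 hz hz0 ht
    exact (hφA _ (hgU z0 hz0)).continuousAt.tendsto.comp (key z z0 hz hz0 ht).1
  · refine tuo_of_seq 𝒰 hK hsK (fun z hz =>
      ((hcA z hz).fderiv_right (m := 1) (by norm_num)).continuousAt.continuousWithinAt) ?_
    intro z z0 hz hz0 ht
    obtain ⟨t0, t1, -, t3⟩ := key z z0 hz hz0 ht
    have p1 : ContDiffAt ℝ 1 (fderiv ℝ φ) (z0, g z0) :=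
      (hφA _ (hgU z0 hz0)).fderiv_right (by norm_num)
    have := (continuous_jet1.tendsto _).comp ((p1.continuousAt.tendsto.comp t0).prodMk_nhds t1)
    rw [fderiv_comp_jet1 ((hgA z0 hz0).differentiableAt (by norm_num))
      ((hφA _ (hgU z0 hz0)).differentiableAt (by norm_num))]
    refine this.congr' ?_
    filter_upwards [t3] with j hj
    exact (fderiv_comp_jet1 (hj.1.differentiableAt (by norm_num))
      (hj.2.differentiableAt (by norm_num))).symm
  · refine tuo_of_seq 𝒰 hK hsK (fun z hz =>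
      (((hcA z hz).fderiv_right (m := 1) (by norm_num)).fderiv_right (m := 0)
        (by norm_num)).continuousAt.continuousWithinAt) ?_
    intro z z0 hz hz0 ht
    obtain ⟨t0, t1, t2, t3⟩ := key z z0 hz hz0 ht
    have p1 : ContDiffAt ℝ 1 (fderiv ℝ φ) (z0, g z0) :=
      (hφA _ (hgU z0 hz0)).fderiv_right (by norm_num)
    have p2 : ContDiffAt ℝ 0 (fderiv ℝ (fderiv ℝ φ)) (z0, g z0) := p1.fderiv_right (by norm_num)
    have := (continuous_jet2.tendsto _).comp
      (((p1.continuousAt.tendsto.comp t0).prodMk_nhds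
        (p2.continuousAt.tendsto.comp t0)).prodMk_nhds (t1.prodMk_nhds t2))
    rw [fderiv_comp_jet2 (hgA z0 hz0) (hφA _ (hgU z0 hz0))]
    refine this.congr' ?_
    filter_upwards [t3] with j hj
    exact (fderiv_comp_jet2 hj.1 hj.2).symm

end Crest.Agent.N222.Lm

end
end

-- ▼ part N222/L/Bx1
section

/-!
# Row 222, limit block (helper18): the cone argument (pure calculus)
-/

set_option autoImplicit false
open MeasureTheory Set Filter Topology Function Metric
open scoped ContDiff InnerProductSpace RealInnerProductSpace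

noncomputable section

namespace Crest.Agent.N222.Lm

variable {m : ℕ}

/-- replace the coordinate `0` by `h` -/
def rep (z : E (Fin (m + 1))) (h : ℝ) : E (Fin (m + 1)) := z + (h - z 0) • ee 0

@[simp] theorem rep_zero (z : E (Fin (m + 1))) (h : ℝ) : rep z h 0 = h := by simp [rep]

@[simp] theorem rep_succ (z : E (Fin (m + 1))) (h : ℝ) (i : Fin m) : rep z h i.succ = z i.succ := by
  simp [rep]

@[simp] theorem rep_rep (z : E (Fin (m + 1))) (h h' : ℝ) : rep (rep z h) h' = rep z h' := by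
  ext i; refine Fin.cases ?_ (fun i => ?_) i <;> simp

@[simp] theorem rep_self (z : E (Fin (m + 1))) : rep z (z 0) = z := by simp [rep]

theorem contDiff_rep : ContDiff ℝ ∞ fun q : E (Fin (m + 1)) × ℝ => rep q.1 q.2 := by
  unfold rep; fun_prop

theorem norm_rep_zero_le (z : E (Fin (m + 1))) : ‖rep z 0‖ ≤ ‖z‖ := by
  rw [EuclideanSpace.norm_eq, EuclideanSpace.norm_eq]
  refine Real.sqrt_le_sqrt ?_
  rw [Fin.sum_univ_succ, Fin.sum_univ_succ]
  simp only [rep_zero, rep_succ, norm_zero]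
  nlinarith [sq_nonneg ‖z 0‖]

theorem rep_eq_add (z : E (Fin (m + 1))) (h : ℝ) : rep z h = rep z 0 + h • ee 0 := by
  ext i; refine Fin.cases ?_ (fun i => ?_) i <;> simp


theorem norm_rep_le (z : E (Fin (m + 1))) (h : ℝ) : ‖rep z h‖ ≤ |h| + ‖rep z 0‖ := by
  rw [rep_eq_add z h]
  refine (norm_add_le _ _).trans ?_
  rw [norm_smul]
  simp [add_comm]









end Crest.Agent.N222.Lm

end
end

-- ▼ part N222/L/Cv1
section

/-!
# Row 222, limit block (helper18): the projection and its derivative are functions of the 2-jet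
-/

set_option autoImplicit false
open MeasureTheory Set Filter Topology Function Metric
open scoped ContDiff InnerProductSpace RealInnerProductSpace

noncomputable section

namespace Crest.Agent.N222.Lm

variable {d m : ℕ} {κ : Type} [Fintype κ] [DecidableEq κ]

/-- the projection onto the range of `J` -/
def PJ (J : E (Fin d) →L[ℝ] E κ) (b c : κ) : ℝ :=
  J (ContinuousLinearMap.adjoint (Lam J) (ee b)) c

/-- the derivative of the projection -/
def BJ (J : E (Fin d) →L[ℝ] E κ) (H : E (Fin d) →L[ℝ] E (Fin d) →L[ℝ] E κ) (a b c : κ) : ℝ :=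
  fderiv ℝ (fun J' : E (Fin d) →L[ℝ] E κ => PJ J' b c) J
    (H (ContinuousLinearMap.adjoint (Lam J) (ee a)))

theorem contDiffAt_PJ {J : E (Fin d) →L[ℝ] E κ} (hJ : Injective J) (b c : κ) :
    ContDiffAt ℝ ∞ (fun J' : E (Fin d) →L[ℝ] E κ => PJ J' b c) J := by
  have h1 : ContDiffAt ℝ ∞ (fun J' : E (Fin d) →L[ℝ] E κ =>
      ContinuousLinearMap.adjoint (Lam J')) J :=
    (contDiff_adjoint (κ := Fin d) (ι := κ)).contDiffAt.comp J (contDiffAt_Lam hJ)
  exact contDiffAt_euclidean.1 (contDiffAt_id.clm_apply (h1.clm_apply contDiffAt_const)) c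

theorem continuousAt_PJ {J : E (Fin d) →L[ℝ] E κ} (hJ : Injective J) :
    ContinuousAt (PJ : (E (Fin d) →L[ℝ] E κ) → κ → κ → ℝ) J :=
  continuousAt_pi.2 fun b => continuousAt_pi.2 fun c => (contDiffAt_PJ hJ b c).continuousAt

theorem continuousAt_BJ {J : E (Fin d) →L[ℝ] E κ} (hJ : Injective J)
    (H : E (Fin d) →L[ℝ] E (Fin d) →L[ℝ] E κ) : ContinuousAt
      (fun s : (E (Fin d) →L[ℝ] E κ) × (E (Fin d) →L[ℝ] E (Fin d) →L[ℝ] E κ) => BJ s.1 s.2) (J, H) := by
  refine continuousAt_pi.2 fun a => continuousAt_pi.2 fun b => continuousAt_pi.2 fun c => ?_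
  have h1 := ((contDiffAt_PJ hJ b c).fderiv_right (m := 0) (by simp)).continuousAt
  have h2 : ContinuousAt (fun J' : E (Fin d) →L[ℝ] E κ => ContinuousLinearMap.adjoint (Lam J')) J :=
    ((contDiff_adjoint (κ := Fin d) (ι := κ)).contDiffAt.comp J (contDiffAt_Lam hJ)).continuousAt
  exact (h1.comp_of_eq (continuousAt_fst (p := (J, H))) rfl).clm_apply (continuousAt_snd.clm_apply
    ((h2.comp_of_eq (continuousAt_fst (p := (J, H))) rfl).clm_apply continuousAt_const))

/-- chain rule for `PJ` along a map -/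
theorem fderiv_PJ {φ : E (Fin d) → E κ} {z : E (Fin d)} (hφ : ContDiffAt ℝ ∞ φ z)
    (hi : Injective (fderiv ℝ φ z)) (a b c : κ) :
    BJ (fderiv ℝ φ z) (fderiv ℝ (fderiv ℝ φ) z) a b c =
      fderiv ℝ (fun y => PJ (fderiv ℝ φ y) b c) z
        (ContinuousLinearMap.adjoint (Lam (fderiv ℝ φ z)) (ee a)) := by
  have h1 := (hφ.fderiv_right (m := 1) (by norm_cast)).differentiableAt one_ne_zero
  have h2 := fderiv_comp z ((contDiffAt_PJ hi b c).differentiableAt (by simp)) h1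
  exact (congrArg (fun T : E (Fin d) →L[ℝ] ℝ =>
    T (ContinuousLinearMap.adjoint (Lam (fderiv ℝ φ z)) (ee a))) h2).symm

section Chart

variable {Y : Type} [TopologicalSpace Y] {G : Imm d κ Y} {e : OpenPartialHomeomorph Y (E (Fin d))}
  {p : Y}

theorem P_chart (he : IsChart G.x e) (hp : p ∈ e.source) (b c : κ) :
    G.pre.P b c p = PJ (fderiv ℝ (G.x ∘ e.symm) (e p)) b c := by
  rw [G.P_apply, Imm.PL, Imm.td_chart G.x he hp]
  rfl

theorem DP_chart (he : IsChart G.x e) (hp : p ∈ e.source) (a b c : κ) :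
    G.pre.D a (G.pre.P b c) p =
      BJ (fderiv ℝ (G.x ∘ e.symm) (e p)) (fderiv ℝ (fderiv ℝ (G.x ∘ e.symm)) (e p)) a b c := by
  have hz := e.map_source hp
  have h : G.pre.P b c ∘ e.symm =ᶠ[𝓝 (e p)] fun y => PJ (fderiv ℝ (G.x ∘ e.symm) y) b c := by
    filter_upwards [e.open_target.mem_nhds hz] with y hy
    rw [comp_apply, P_chart he (e.map_target hy), e.right_inv hy]
  rw [fderiv_PJ (he.contDiffAt hz) (he.inj _ hz), ← h.fderiv_eq]
  change G.td _ p _ = _
  rw [Imm.td_chart _ he hp]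
  rfl

end Chart

variable {ι : Type} [Fintype ι] [DecidableEq ι]

/-- `z ↦ (t + z 0, φ z)` -/
def lift (t : ℝ) (φ : E (Fin (m + 1)) → E ι) (z : E (Fin (m + 1))) : E (Option ι) :=
  up (t + z 0) (φ z)

omit [DecidableEq ι] in
theorem contDiff_lift (t : ℝ) :
    ContDiff ℝ ∞ fun s : E (Fin (m + 1)) × E ι => up (t + s.1 0) s.2 :=
  contDiff_up.comp (f := fun s : E (Fin (m + 1)) × E ι => (t + s.1 0, s.2)) (by fun_prop)

omit [DecidableEq ι] in
theorem fderiv_lift (t : ℝ) {φ : E (Fin (m + 1)) → E ι} {z : E (Fin (m + 1))}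
    (hφ : DifferentiableAt ℝ φ z) (v : E (Fin (m + 1))) :
    fderiv ℝ (lift t φ) z v = up (v 0) (fderiv ℝ φ z v) := by
  have h := ((upL ι).hasFDerivAt.comp z ((((EuclideanSpace.proj (0 : Fin (m + 1)) :
    E (Fin (m + 1)) →L[ℝ] ℝ).hasFDerivAt (x := z)).const_add t).prodMk hφ.hasFDerivAt)).fderiv
  exact congrArg (fun T : E (Fin (m + 1)) →L[ℝ] E (Option ι) => T v) h

/-- the differential of a cylinder -/
def cylJ (J : E (Fin m) →L[ℝ] E ι) : E (Fin (m + 1)) →L[ℝ] E (Option ι) :=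
  upL ι ∘L (EuclideanSpace.proj (0 : Fin (m + 1)) : E (Fin (m + 1)) →L[ℝ] ℝ).prod (J ∘L tailL m)

omit [DecidableEq ι] in
theorem cylJ_apply (J : E (Fin m) →L[ℝ] E ι) (v : E (Fin (m + 1))) :
    cylJ J v = up (v 0) (J (tail0 v)) := rfl

omit [DecidableEq ι] in
theorem cylJ_inj {J : E (Fin m) →L[ℝ] E ι} (hJ : Injective J) : Injective (cylJ J) :=
  fun v w h => by
    have h1 : v 0 = w 0 := congrArg (fun y : E (Option ι) => y none) h
    have h2 : tail0 v = tail0 w := hJ (congrArg down h)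
    rw [← cons0_tail0 v, h1, h2, cons0_tail0]

omit [DecidableEq ι] in
theorem adj_Lam_cylJ {J : E (Fin m) →L[ℝ] E ι} (hJ : Injective J) (w : E (Option ι)) :
    ContinuousLinearMap.adjoint (Lam (cylJ J)) w =
      cons0 (w none) (ContinuousLinearMap.adjoint (Lam J) (down w)) := by
  classical
  refine adj_Lam_eq_of (cylJ_inj hJ) fun v => ?_
  have h := inner_sub_proj hJ (tail0 v) (down w)
  change ⟪up (v 0) (J (tail0 v)),
    w - up (w none) (J (ContinuousLinearMap.adjoint (Lam J) (down w)))⟫ = 0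
  conv_lhs => rw [← up_down w]
  simp only [up_none, down_up]
  rw [up_sub, inner_up, h]
  simp

theorem inner_cons0 (v : E (Fin (m + 1))) (t : ℝ) (y : E (Fin m)) :
    ⟪v, cons0 t y⟫ = v 0 * t + ⟪tail0 v, y⟫ := by
  simp [PiLp.inner_apply, Fin.sum_univ_succ, mul_comm]

omit [DecidableEq ι] in
theorem jac_cylJ (J : E (Fin m) →L[ℝ] E ι) : jac (cylJ J) = jac J := by
  classical
  let c : (ℝ × E (Fin m)) ≃ₗ[ℝ] E (Fin (m + 1)) :=
    { (consL m).toLinearMap with
      invFun := fun v => (v 0, tail0 v), left_inv := fun _ => rfl, right_inv := cons0_tail0 }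
  have h := LinearMap.det_conj (LinearMap.prodMap (LinearMap.id : ℝ →ₗ[ℝ] ℝ)
    (ContinuousLinearMap.adjoint J ∘L J : E (Fin m) →L[ℝ] E (Fin m)).toLinearMap) c
  rw [LinearMap.det_prodMap, LinearMap.det_id, one_mul] at h
  rw [jac, jac, ContinuousLinearMap.det, ContinuousLinearMap.det, ← h]
  congr 2
  refine LinearMap.ext fun v => ext_inner_left ℝ fun w => ?_
  change ⟪w, ContinuousLinearMap.adjoint (cylJ J) (cylJ J v)⟫ =
    ⟪w, cons0 (v 0) (ContinuousLinearMap.adjoint J (J (tail0 v)))⟫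
  rw [ContinuousLinearMap.adjoint_inner_right, inner_cons0, ContinuousLinearMap.adjoint_inner_right,
    cylJ_apply, cylJ_apply, inner_up]

omit [DecidableEq ι] in
/-- the cylinder over the slice `{z 0 = 0}` is immersed -/
theorem inj_cyl (t : ℝ) {φ : E (Fin (m + 1)) → E ι} {z : E (Fin (m + 1))}
    (hφ : DifferentiableAt ℝ φ (rep z 0)) (hi : Injective (fderiv ℝ φ (rep z 0))) :
    Injective (fderiv ℝ (lift t fun y => φ (rep y 0)) z) := by
  let L : E (Fin (m + 1)) →L[ℝ] E (Fin (m + 1)) :=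
    consL m ∘L ContinuousLinearMap.inr ℝ ℝ _ ∘L tailL m
  have hL : ∀ y, L y = rep y 0 := fun y => by
    ext i; refine Fin.cases ?_ (fun i => ?_) i <;> simp [L]
  have h1 : HasFDerivAt (fun y => φ (rep y 0)) (fderiv ℝ φ (rep z 0) ∘L L) z := by
    have h2 := hφ.hasFDerivAt
    rw [← hL] at h2
    simpa only [comp_def, hL] using h2.comp z L.hasFDerivAt
  intro v w h
  rw [fderiv_lift t h1.differentiableAt, fderiv_lift t h1.differentiableAt, h1.fderiv] at h
  have h3 : v 0 = w 0 := congrArg (fun y : E (Option ι) => y none) h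
  have h4 := congrArg tail0 (hi (congrArg down h) : L v = L w)
  rw [← cons0_tail0 v, h3, show tail0 v = tail0 w from h4, cons0_tail0]

section Cyl

variable {Y : Type} [TopologicalSpace Y] [MeasurableSpace Y] {N : Imm m ι Y}
  {e : OpenPartialHomeomorph Y (E (Fin m))} {z : E (Fin (m + 1))} {ψ : E (Fin (m + 1)) → E (Option ι)}
  {t : ℝ}

omit [DecidableEq ι] [MeasurableSpace Y] in
theorem fderiv_cyl (he : IsChart N.x e) (hz : tail0 z ∈ e.target)
    (hψ : ψ =ᶠ[𝓝 z] lift t fun y => N.x (e.symm (tail0 y))) :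
    fderiv ℝ ψ z = cylJ (fderiv ℝ (N.x ∘ e.symm) (tail0 z)) := by
  have h := (he.hasFDerivAt hz).comp z (tailL m).hasFDerivAt
  ext1 v
  rw [hψ.fderiv_eq]
  exact (fderiv_lift t h.differentiableAt v).trans (by rw [h.fderiv]; rfl)

omit [DecidableEq ι] [MeasurableSpace Y] in
theorem jac_cyl (he : IsChart N.x e) (hz : tail0 z ∈ e.target)
    (hψ : ψ =ᶠ[𝓝 z] lift t fun y => N.x (e.symm (tail0 y))) :
    jac (fderiv ℝ ψ z) = jac (fderiv ℝ (N.x ∘ e.symm) (tail0 z)) := by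
  rw [fderiv_cyl he hz hψ, jac_cylJ]

omit [MeasurableSpace Y] in
theorem PJ_cyl (he : IsChart N.x e) (hz : tail0 z ∈ e.target)
    (hψ : ψ =ᶠ[𝓝 z] lift t fun y => N.x (e.symm (tail0 y))) :
    PJ (fderiv ℝ ψ z) = N.cylP (e.symm (tail0 z)) := by
  funext b c
  rw [fderiv_cyl he hz hψ, PJ, adj_Lam_cylJ (he.inj _ hz), cylJ_apply]
  rcases b with _ | b
  · rcases c with _ | c <;> simp [Imm.cylP, Pre.Pb, down_ee_none]
  · rcases c with _ | c
    · simp [Imm.cylP, Pre.Pb]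
    · rw [down_ee_some]
      have h := P_chart he (e.map_target hz) b c
      rw [e.right_inv hz] at h
      exact h.symm

omit [MeasurableSpace Y] in
theorem BJ_cyl (he : IsChart N.x e) (hz : tail0 z ∈ e.target)
    (hψ : ψ =ᶠ[𝓝 z] lift t fun y => N.x (e.symm (tail0 y))) :
    BJ (fderiv ℝ ψ z) (fderiv ℝ (fderiv ℝ ψ) z) = N.cylB (e.symm (tail0 z)) := by
  funext a b c
  have h1 : ContDiffAt ℝ ∞ ψ z := ((contDiff_lift t).contDiffAt.comp z (contDiffAt_id.prodMk
    ((he.contDiffAt hz).comp z contDiff_tail0.contDiffAt))).congr_of_eventuallyEq hψ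
  have h2 : (fun y => PJ (fderiv ℝ ψ y) b c) =ᶠ[𝓝 z] (N.pre.Pb b c ∘ e.symm) ∘ tail0 := by
    filter_upwards [hψ.eventually_nhds, (e.open_target.preimage contDiff_tail0.continuous).mem_nhds hz]
      with y hy hy'
    rw [PJ_cyl he hy' hy]
    rfl
  have h3 := fderiv_cyl he hz hψ
  rw [fderiv_PJ h1 (h3 ▸ cylJ_inj (he.inj _ hz)), h2.fderiv_eq, fderiv_comp_tail0, h3,
    adj_Lam_cylJ (he.inj _ hz), ContinuousLinearMap.comp_apply, tailL_apply, tail0_cons0]
  rcases a with _ | a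
  · rw [down_ee_none, map_zero, map_zero]
    rfl
  · rw [down_ee_some]
    change _ = N.td _ _ _
    rw [Imm.td_chart _ he (e.map_target hz), e.right_inv hz]
    rfl

end Cyl

end Crest.Agent.N222.Lm

end
end

-- ▼ part N222/L/Cv3

/-!
# Row 222, limit block (helper18): convergence of curvature integrals in one box
-/

set_option autoImplicit false
set_option linter.unusedSectionVars false
open MeasureTheory Set Filter Topology Function Metric
open scoped ContDiff InnerProductSpace RealInnerProductSpace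

noncomputable section

namespace Crest.Agent.N222.Lm

/-- the domain of the integrands -/
abbrev Dom (X ι : Type) : Type :=
  X × ℝ × (Option ι → Option ι → ℝ) × (Option ι → Option ι → Option ι → ℝ)

variable {m : ℕ} {ι : Type} [Fintype ι] [DecidableEq ι] {X : Type} [TopologicalSpace X]
  [T2Space X] [SecondCountableTopology X] [MeasurableSpace X] [BorelSpace X]

/-- the integrand on a graph -/
def gInt (M : Imm (m + 1) ι X) (Ψ : Dom X ι → ℝ) (u : X → ℝ) (q : X) : ℝ :=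
  Ψ (q, u q, fun b c => (M.gS u).P b c q, fun a b c => (M.gS u).D a ((M.gS u).P b c) q)

/-- the parametrisation of the cylinder -/
def cyl (M : Imm (m + 1) ι X) (e : OpenPartialHomeomorph X (E (Fin (m + 1)))) (t : ℝ) :
    E (Fin (m + 1)) → E (Option ι) := lift t fun y => M.x (e.symm (rep y 0))

/-- the integrand on the cylinder, in a chart -/
def cInt (M : Imm (m + 1) ι X) (Ψ : Dom X ι → ℝ) (e : OpenPartialHomeomorph X (E (Fin (m + 1))))
    (t : ℝ) (z : E (Fin (m + 1))) : ℝ :=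
  jac (fderiv ℝ (cyl M e t) z) * Ψ (e.symm (rep z 0), t + z 0, PJ (fderiv ℝ (cyl M e t) z),
    BJ (fderiv ℝ (cyl M e t) z) (fderiv ℝ (fderiv ℝ (cyl M e t)) z))

variable {M : Imm (m + 1) ι X} {Ψ : Dom X ι → ℝ} {e : OpenPartialHomeomorph X (E (Fin (m + 1)))}
  {t ρ : ℝ}

namespace C3

/-- the integrand as a function of the 2-jet -/
def jI (Ψ : Dom X ι → ℝ) (q : X) (s : ℝ) (J : E (Fin (m + 1)) →L[ℝ] E (Option ι))
    (H : E (Fin (m + 1)) →L[ℝ] E (Fin (m + 1)) →L[ℝ] E (Option ι)) : ℝ :=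
  jac J * Ψ (q, s, PJ J, BJ J H)

omit [T2Space X] [SecondCountableTopology X] [MeasurableSpace X] [BorelSpace X] in
theorem tendsto_jI (hΨ : Continuous Ψ) {α : Type} {l : Filter α} {q : α → X} {s : α → ℝ}
    {J : α → E (Fin (m + 1)) →L[ℝ] E (Option ι)}
    {H : α → E (Fin (m + 1)) →L[ℝ] E (Fin (m + 1)) →L[ℝ] E (Option ι)} {q0 : X} {s0 : ℝ}
    {J0 : E (Fin (m + 1)) →L[ℝ] E (Option ι)}
    {H0 : E (Fin (m + 1)) →L[ℝ] E (Fin (m + 1)) →L[ℝ] E (Option ι)} (hJ : Injective J0)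
    (h1 : Tendsto q l (𝓝 q0)) (h2 : Tendsto s l (𝓝 s0)) (h3 : Tendsto J l (𝓝 J0))
    (h4 : Tendsto H l (𝓝 H0)) :
    Tendsto (fun j => jI Ψ (q j) (s j) (J j) (H j)) l (𝓝 (jI Ψ q0 s0 J0 H0)) := by
  have a1 : Tendsto (fun j => jac (J j)) l (𝓝 (jac J0)) :=
    (contDiffAt_jac hJ).continuousAt.tendsto.comp h3
  have a2 : Tendsto (fun j => PJ (J j)) l (𝓝 (PJ J0)) := (continuousAt_PJ hJ).tendsto.comp h3
  have a3 : Tendsto (fun j => BJ (J j) (H j)) l (𝓝 (BJ J0 H0)) :=
    (continuousAt_BJ hJ H0).tendsto.comp (h3.prodMk_nhds h4)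
  exact a1.mul ((hΨ.tendsto _).comp (h1.prodMk_nhds (h2.prodMk_nhds (a2.prodMk_nhds a3))))

theorem contDiff_rep0 : ContDiff ℝ ∞ fun z : E (Fin (m + 1)) => rep z 0 :=
  contDiff_rep.comp (contDiff_id.prodMk contDiff_const)

omit [T2Space X] [SecondCountableTopology X] [MeasurableSpace X] [BorelSpace X] in
theorem isOpen_O (e : OpenPartialHomeomorph X (E (Fin (m + 1)))) :
    IsOpen {z : E (Fin (m + 1)) | rep z 0 ∈ e.target} :=
  e.open_target.preimage contDiff_rep0.continuous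

omit [T2Space X] [SecondCountableTopology X] [MeasurableSpace X] [BorelSpace X] in
theorem ball_sub (h : closedBall 0 ρ ⊆ e.target) :
    closedBall 0 ρ ⊆ {z : E (Fin (m + 1)) | rep z 0 ∈ e.target} := fun z hz =>
  h (mem_closedBall_zero_iff.2 ((norm_rep_zero_le z).trans (mem_closedBall_zero_iff.1 hz)))

omit [DecidableEq ι] [T2Space X] [SecondCountableTopology X] [MeasurableSpace X] [BorelSpace X] in
theorem sm_base (he : IsChart M.x e) :
    ContDiffOn ℝ ∞ (fun y => M.x (e.symm (rep y 0))) {z | rep z 0 ∈ e.target} :=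
  he.sm.comp contDiff_rep0.contDiffOn fun _ hz => hz

omit [DecidableEq ι] [T2Space X] [SecondCountableTopology X] [MeasurableSpace X] [BorelSpace X] in
theorem sm_cyl (he : IsChart M.x e) (t : ℝ) {z : E (Fin (m + 1))} (hz : rep z 0 ∈ e.target) :
    ContDiffAt ℝ ∞ (cyl M e t) z :=
  ((contDiff_lift t).comp_contDiffOn (contDiffOn_id.prodMk (sm_base he))).contDiffAt
    ((isOpen_O e).mem_nhds hz)

omit [DecidableEq ι] [T2Space X] [SecondCountableTopology X] [MeasurableSpace X] [BorelSpace X] in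
theorem inj_cyl' (he : IsChart M.x e) (t : ℝ) {z : E (Fin (m + 1))} (hz : rep z 0 ∈ e.target) :
    Injective (fderiv ℝ (cyl M e t) z) :=
  inj_cyl t (φ := M.x ∘ e.symm)
    ((he.sm.contDiffAt (e.open_target.mem_nhds hz)).differentiableAt (by simp)) (he.inj _ hz)

omit [DecidableEq ι] [T2Space X] [SecondCountableTopology X] [MeasurableSpace X] [BorelSpace X] in
theorem cont_d1 (he : IsChart M.x e) (t : ℝ) {z : E (Fin (m + 1))} (hz : rep z 0 ∈ e.target) :
    ContDiffAt ℝ ∞ (fderiv ℝ (cyl M e t)) z := (sm_cyl he t hz).fderiv_right (by simp)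

omit [DecidableEq ι] [T2Space X] [SecondCountableTopology X] [MeasurableSpace X] [BorelSpace X] in
theorem cont_d2 (he : IsChart M.x e) (t : ℝ) {z : E (Fin (m + 1))} (hz : rep z 0 ∈ e.target) :
    ContDiffAt ℝ ∞ (fderiv ℝ (fderiv ℝ (cyl M e t))) z := (cont_d1 he t hz).fderiv_right (by simp)

theorem continuous_gInt (hΨ : Continuous Ψ) {u : X → ℝ} (hu : M.Sm u) :
    Continuous (gInt M Ψ u) := by
  unfold gInt
  rw [← Imm.graph_pre hu]
  exact hΨ.comp (continuous_id.prodMk (hu.continuous.prodMk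
    ((continuous_pi fun b => continuous_pi fun c => (Imm.sm_P _ b c).continuous).prodMk
      (continuous_pi fun a => continuous_pi fun b => continuous_pi fun c =>
        ((Imm.sm_P _ b c).D a).continuous))))

theorem gInt_chart {u : X → ℝ} (hu : M.Sm u) (he : IsChart M.x e) {z : E (Fin (m + 1))}
    (hz : z ∈ e.target) :
    jac (fderiv ℝ (M.gx u ∘ e.symm) z) • gInt M Ψ u (e.symm z) =
      jI Ψ (e.symm z) (u (e.symm z)) (fderiv ℝ (M.gx u ∘ e.symm) z)
        (fderiv ℝ (fderiv ℝ (M.gx u ∘ e.symm)) z) := by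
  have he' : IsChart (M.graph u hu).x e := Imm.isChart_graph hu he
  have h1 := fun b c => P_chart he' (e.map_target hz) b c
  have h2 := fun a b c => DP_chart he' (e.map_target hz) a b c
  rw [e.right_inv hz, Imm.graph_pre hu, Imm.graph_x hu] at h1 h2
  simp only [gInt, jI, h1, h2, smul_eq_mul]

end C3

open C3

omit [T2Space X] [SecondCountableTopology X] [MeasurableSpace X] [BorelSpace X] in
theorem continuousOn_cInt (he : IsChart M.x e) (hΨ : Continuous Ψ) (t : ℝ) :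
    ContinuousOn (cInt M Ψ e t) {z | rep z 0 ∈ e.target} := by
  intro z hz
  refine ContinuousAt.continuousWithinAt ?_
  have h1 : Tendsto (fun z => e.symm (rep z 0)) (𝓝 z) (𝓝 (e.symm (rep z 0))) :=
    (e.continuousAt_symm hz).tendsto.comp (contDiff_rep0.continuous.tendsto z)
  have h2 : Tendsto (fun z : E (Fin (m + 1)) => t + z 0) (𝓝 z) (𝓝 (t + z 0)) :=
    (by fun_prop : Continuous fun z : E (Fin (m + 1)) => t + z 0).tendsto z
  exact tendsto_jI hΨ (inj_cyl' he t hz) h1 h2 (cont_d1 he t hz).continuousAt.tendsto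
    (cont_d2 he t hz).continuousAt.tendsto

theorem tendsto_box [CompactSpace X] (hM : Injective M.x) {𝒰 : Ultrafilter ℕ} {u : ℕ → X → ℝ}
    (hu : ∀ j, M.Sm (u j)) {p : X} {c : ℕ → OpenPartialHomeomorph X (E (Fin (m + 1)))}
    (B : Box M 𝒰 u p t e ρ c) (hΨ : Continuous Ψ)
    (h0 : ∀ᶠ j in (𝒰 : Filter ℕ), ∀ q, gInt M Ψ (u j) q ≠ 0 → q ∈ (c j).source) :
    Tendsto (fun j => ∫ q, gInt M Ψ (u j) q ∂M.gmu (u j)) 𝒰
      (𝓝 (∫ z in ball 0 ρ, cInt M Ψ e t z)) := by
  have hKO := ball_sub B.sub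
  have hcI := (continuousOn_cInt B.ch hΨ t).mono hKO
  have hC : C2 (fun j => M.x ∘ (c j).symm) (fun z => M.x (e.symm (rep z 0))) 𝒰 (ball 0 ρ) := by
    have : (fun z : E (Fin (m + 1)) => M.x (e.symm (rep z 0))) =
        fun z => M.x (e.symm (z - z 0 • ee 0)) := by
      funext z
      rw [rep, zero_sub, neg_smul, ← sub_eq_add_neg]
    rw [this]
    exact c2_iff.2 B.conv
  have hC' : C2 (fun j => M.gx (u j) ∘ (c j).symm) (cyl M e t) 𝒰 (ball 0 ρ) := by
    refine (hC.comp isOpen_ball (isCompact_closedBall 0 ρ) (isOpen_O e) ball_subset_closedBall hKO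
      (sm_base B.ch) (B.chj.mono fun j hj => hj.2.1 ▸ hj.1.sm) isOpen_univ
      (contDiff_lift t).contDiffOn fun _ _ => mem_univ _).congr isOpen_ball
      (B.chj.mono fun j hj z hz => ?_) fun _ _ => rfl
    simp only [comp_apply, Imm.gx, hj.2.2 z hz]
  set F : ℕ → E (Fin (m + 1)) → ℝ := fun j z => jI Ψ ((c j).symm z) (t + z 0)
    (fderiv ℝ (M.gx (u j) ∘ (c j).symm) z) (fderiv ℝ (fderiv ℝ (M.gx (u j) ∘ (c j).symm)) z)
  have hF : ∀ᶠ j in (𝒰 : Filter ℕ), IntegrableOn (F j) (ball 0 ρ) ∧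
      ∫ z in ball 0 ρ, F j z = ∫ q, gInt M Ψ (u j) q ∂M.gmu (u j) := by
    filter_upwards [B.chj, h0] with j hj hs
    have he' : IsChart (M.graph (u j) (hu j)).x (c j) := Imm.isChart_graph (hu j) hj.1
    have hE : EqOn (fun z => jac (fderiv ℝ ((M.graph (u j) (hu j)).x ∘ (c j).symm) z) •
        gInt M Ψ (u j) ((c j).symm z)) (F j) (ball 0 ρ) := fun z hz => by
      have := gInt_chart (Ψ := Ψ) (hu j) hj.1 (hj.2.1 ▸ hz)
      rw [hj.2.2 z hz] at this
      exact this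
    have hi := (Imm.integrableOn_chart he' (gInt M Ψ (u j))).1
      ((continuous_gInt hΨ (hu j)).integrable_of_hasCompactSupport
        (HasCompactSupport.of_compactSpace _)).integrableOn
    rw [hj.2.1] at hi
    refine ⟨hi.congr_fun hE measurableSet_ball, ?_⟩
    rw [← Imm.graph_mu (hu j), Imm.integral_chart he' fun q hq => hs q hq, hj.2.1,
      setIntegral_congr_fun measurableSet_ball hE]
  have hT : TendstoUniformlyOn F (cInt M Ψ e t) 𝒰 (ball 0 ρ) := by
    refine tuo_of_seq 𝒰 (isCompact_closedBall 0 ρ) ball_subset_closedBall hcI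
      fun z z0 hz hz0 hl => ?_
    have hO := hKO hz0
    have h1 : Tendsto (fun j => (c j).symm (z j)) 𝒰 (𝓝 (e.symm (rep z0 0))) :=
      (Imm.tendsto_iff_x hM).2 (seq_of_tuo hC.c0
        ((sm_base B.ch).contDiffAt ((isOpen_O e).mem_nhds hO)).continuousAt hz hl)
    have h2 : Tendsto (fun j => t + z j 0) 𝒰 (𝓝 (t + z0 0)) :=
      ((by fun_prop : Continuous fun z : E (Fin (m + 1)) => t + z 0).tendsto z0).comp hl
    have h3 := seq_of_tuo hC'.c1 (cont_d1 B.ch t hO).continuousAt hz hl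
    have h4 := seq_of_tuo hC'.c2 (cont_d2 B.ch t hO).continuousAt hz hl
    exact tendsto_jI hΨ (inj_cyl' B.ch t hO) h1 h2 h3 h4
  exact (tendsto_setIntegral_of_tuo measurableSet_ball measure_ball_lt_top.ne hT
    (hF.mono fun _ h => h.1) ((hcI.integrableOn_compact (isCompact_closedBall 0 ρ)).mono_set
      ball_subset_closedBall)).congr' (hF.mono fun _ h => h.2)

end Crest.Agent.N222.Lm

end
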