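import Crest.Agent.N222.B.Defs2
import Crest.Agent.N222.F.Lip
import Crest.Agent.N222.L.Cv3
import Crest.Agent.N222.F.Graph

-- ▼ part N222/L/Cv2
section

/-!
# Row 222, limit block (helper18): extension of test functions from a slice
-/

set_option autoImplicit false
open MeasureTheory Set Filter Topology Function Metric
open scoped ContDiff InnerProductSpace RealInnerProductSpace

noncomputable section

namespace Crest.Agent.N222.Lm

variable {m : ℕ} {ι : Type} [Fintype ι] {X : Type} [TopologicalSpace X] [T2Space X]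
  [SecondCountableTopology X]

theorem exists_ext {M : Imm (m + 1) ι X} {S U : Set X} (hU : IsOpen U) (hS : S ⊆ U)
    (h : ∀ q ∈ S, ∃ e : OpenPartialHomeomorph X (E (Fin (m + 1))), IsChart M.x e ∧ q ∈ e.source ∧
      ∀ p ∈ e.source, p ∈ S ↔ e p 0 = 0) {N : Imm m ι S} (hN : ∀ q, N.x q = M.x q)
    {z : S → ℝ} (hz : N.Tst z) : ∃ z', M.Sm z' ∧ tsupport z' ⊆ U ∧ ∀ q : S, z' q = z q := by
  have hx : N.x = fun q : S => M.x q := funext hN
  have H : ∀ q : S, ∃ (V : Set X) (g : X → ℝ), IsOpen V ∧ q.1 ∈ V ∧ V ⊆ U ∧ M.SmOn V g ∧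
      ∀ p : S, p.1 ∈ V → g p = z p := fun q => by
    obtain ⟨e, he, hq, hs⟩ := h q q.2
    obtain ⟨e', he', h1, -, h3, -⟩ := exists_sliceChart he hs q
    rw [← hx] at he'
    refine ⟨U ∩ (e.source ∩ e ⁻¹' (tail0 ⁻¹' e'.target)), fun p => z (e'.symm (tail0 (e p))),
      hU.inter (e.isOpen_inter_preimage (e'.open_target.preimage contDiff_tail0.continuous)),
      ⟨hS q.2, hq, ?_⟩, inter_subset_left, Imm.smOn_of_chart he (fun _ hp => hp.2.1)
      fun p hp => ?_, fun p hp => ?_⟩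
    · change tail0 (e q) ∈ e'.target
      rw [← h3]
      exact e'.map_source (h1 ▸ hq)
    · refine ((((hz.sm.chart he').contDiffAt (e'.open_target.mem_nhds hp.2.2)).comp (e p)
        contDiff_tail0.contDiffAt)).congr_of_eventuallyEq ?_
      filter_upwards [e.open_target.mem_nhds (e.map_source hp.2.1)] with y hy
      simp only [comp_apply, e.right_inv hy]
    · beta_reduce
      rw [← h3, e'.left_inv (h1 ▸ hp.2.1)]
  choose V g h1 h2 h3 h4 h5 using H
  obtain ⟨n, φ, i, h6, -, h7⟩ := M.exists_partition (hz.cs.isCompact.image continuous_subtype_val)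
    V h1 (by rintro _ ⟨q, -, rfl⟩; exact mem_iUnion.2 ⟨q, h2 q⟩)
  refine ⟨fun p => ∑ k, φ k p • g (i k) p,
    Imm.sm_sum _ fun k _ => (h4 _).smul_sm (h6 k).1.sm (h6 k).2.1, ?_, fun q => ?_⟩
  · refine (closure_minimal (fun p hp => ?_)
      (isClosed_iUnion_of_finite fun k => isClosed_tsupport (φ k))).trans
      (iUnion_subset fun k => (h6 k).2.1.trans (h3 _))
    obtain ⟨k, -, hk⟩ := Finset.exists_ne_zero_of_sum_ne_zero hp
    exact mem_iUnion.2 ⟨k, subset_tsupport _ (left_ne_zero_of_smul hk)⟩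
  · have h8 : ∀ k, φ k q • g (i k) q = φ k q * z q := fun k => by
      by_cases hk : φ k q = 0
      · rw [hk, zero_smul, zero_mul]
      · rw [h5 _ q ((h6 k).2.1 (subset_tsupport _ hk)), smul_eq_mul]
    simp only [h8, ← Finset.sum_mul]
    by_cases hq : z q = 0
    · rw [hq, mul_zero]
    · rw [h7.self_of_nhdsSet _ ⟨q, subset_tsupport _ hq, rfl⟩, one_mul]

end Crest.Agent.N222.Lm

end
end

-- ▼ part N222/L/Cv4
section

/-!
# Row 222, limit block (helper18): the integral over the cylinder in a slice chart (Fubini)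
-/

set_option autoImplicit false
open MeasureTheory Set Filter Topology Function Metric
open scoped ContDiff InnerProductSpace RealInnerProductSpace

noncomputable section

namespace Crest.Agent.N222.Lm

variable {m : ℕ} {ι : Type} [Fintype ι] [DecidableEq ι] {X : Type} [TopologicalSpace X]
  [T2Space X] [SecondCountableTopology X] [MeasurableSpace X] [BorelSpace X]

namespace C4

/-- `cons0` as a measurable equivalence -/
def consE (m : ℕ) : ℝ × E (Fin m) ≃ᵐ E (Fin (m + 1)) where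
  toFun q := cons0 q.1 q.2
  invFun z := (z 0, tail0 z)
  left_inv _ := rfl
  right_inv := cons0_tail0
  measurable_toFun := contDiff_cons0.continuous.measurable
  measurable_invFun := ((by fun_prop : Continuous fun z : E (Fin (m + 1)) => z 0).prodMk
    contDiff_tail0.continuous).measurable

theorem mp_cons (m : ℕ) : MeasurePreserving (consE m) := by
  have h := ((MeasurePreserving.id (volume : Measure ℝ)).prod
    (PiLp.volume_preserving_toLp (Fin m))).comp
      ((volume_preserving_piFinSuccAbove (fun _ : Fin (m + 1) => ℝ) 0).comp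
        (PiLp.volume_preserving_ofLp (Fin (m + 1))))
  exact MeasurePreserving.symm (consE m).symm h

theorem rep_eq (z : E (Fin (m + 1))) : rep z 0 = cons0 0 (tail0 z) := by
  ext i; refine Fin.cases ?_ (fun i => ?_) i <;> simp

end C4

theorem integral_cons0 {f : E (Fin (m + 1)) → ℝ} (hf : Integrable f) (t : ℝ) :
    ∫ z, f z = ∫ y : E (Fin m), ∫ s : ℝ, f (cons0 (s - t) y) := by
  have h1 := (C4.mp_cons m).integral_comp' f
  have h2 : Integrable (fun q : ℝ × E (Fin m) => f (cons0 q.1 q.2)) (volume.prod volume) :=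
    ((C4.mp_cons m).integrable_comp_emb (C4.consE m).measurableEmbedding).2 hf
  rw [← h1]
  refine (integral_prod_symm _ h2).trans ?_
  exact integral_congr_ae (Eventually.of_forall fun y =>
    (integral_sub_right_eq_self (fun s => f (cons0 s y)) t).symm)

theorem integral_cInt {M : Imm (m + 1) ι X} {Ψ : Dom X ι → ℝ} (hΨ : Continuous Ψ)
    {e : OpenPartialHomeomorph X (E (Fin (m + 1)))} (he : IsChart M.x e) {t ρ : ℝ}
    (hρ : closedBall 0 ρ ⊆ e.target) {S U : Set X} (hU : IsOpen U)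
    (hS : ∀ q ∈ e.source ∩ U, q ∈ S ↔ e q 0 = 0) {N : Imm m ι S} (hN : ∀ q, N.x q = M.x q) (q0 : S)
    (h0 : ∀ s, Ψ s ≠ 0 → s.1 ∈ e.source ∩ U ∧ ‖e s.1‖ < ρ / 2 ∧ |s.2.1 - t| < ρ / 2) :
    ∫ z in ball 0 ρ, cInt M Ψ e t z = ∫ q : S, (∫ s : ℝ, Ψ (q, s, N.cylP q, N.cylB q)) ∂N.mu := by
  obtain ⟨e', he', hs', ht', -, hsy⟩ := exists_sliceChart (he.restr hU) hS q0
  have heN : IsChart N.x e' := by rw [show N.x = fun q : S => M.x q from funext hN]; exact he'
  have hKO := C3.ball_sub hρ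
  have hi : IntegrableOn (cInt M Ψ e t) (ball 0 ρ) :=
    (((continuousOn_cInt he hΨ t).mono hKO).integrableOn_compact
      (isCompact_closedBall 0 ρ)).mono_set ball_subset_closedBall
  have hsup : support (fun q : S => ∫ s : ℝ, Ψ (q, s, N.cylP q, N.cylB q)) ⊆ e'.source := by
    intro q hq
    by_contra h
    refine hq (integral_eq_zero_of_ae (Eventually.of_forall fun s => ?_))
    by_contra h'
    exact h (hs' ▸ (h0 _ h').1)
  rw [Imm.integral_chart heN hsup, ← integral_indicator measurableSet_ball,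
    ← integral_indicator e'.open_target.measurableSet,
    integral_cons0 ((integrable_indicator_iff measurableSet_ball).2 hi) t]
  refine integral_congr_ae (Eventually.of_forall fun y => ?_)
  beta_reduce
  by_cases hy : y ∈ e'.target
  · rw [indicator_of_mem hy, smul_eq_mul, ← integral_const_mul]
    refine integral_congr_ae (Eventually.of_forall fun s => ?_)
    beta_reduce
    have hy' : cons0 0 y ∈ e.target := by
      have := hy
      rw [ht'] at this
      exact this.1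
    have hy2 : tail0 (cons0 (s - t) y) ∈ e'.target := hy
    have hr : rep (cons0 (s - t) y) 0 = cons0 0 y := C4.rep_eq _
    by_cases hz : cons0 (s - t) y ∈ ball (0 : E (Fin (m + 1))) ρ
    · have hψ : cyl M e t =ᶠ[𝓝 (cons0 (s - t) y)] lift t fun w => N.x (e'.symm (tail0 w)) := by
        filter_upwards [contDiff_tail0.continuous.continuousAt.preimage_mem_nhds
          (e'.open_target.mem_nhds hy2)] with w hw
        simp only [cyl, lift, hN, hsy _ hw, C4.rep_eq]
        rfl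
      rw [indicator_of_mem hz, cInt, jac_cyl heN hy2 hψ, PJ_cyl heN hy2 hψ, BJ_cyl heN hy2 hψ, hr,
        hsy y hy, cons0_zero, add_sub_cancel]
      rfl
    · rw [indicator_of_notMem hz]
      refine (mul_eq_zero_of_right _ ?_).symm
      by_contra h
      obtain ⟨-, h1, h2⟩ := h0 _ h
      have h3 : e (e'.symm y) = cons0 0 y := by rw [hsy y hy]; exact e.right_inv hy'
      have h4 := norm_rep_le (cons0 (s - t) y) (s - t)
      rw [hr, show rep (cons0 (s - t) y) (s - t) = cons0 (s - t) y from rep_self _] at h4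
      dsimp only at h1 h2
      rw [h3] at h1
      exact hz (mem_ball_zero_iff.2 (by linarith))
  · rw [indicator_of_notMem hy]
    refine integral_eq_zero_of_ae (Eventually.of_forall fun s => ?_)
    by_cases hz : cons0 (s - t) y ∈ ball (0 : E (Fin (m + 1))) ρ
    · beta_reduce
      rw [indicator_of_mem hz]
      refine mul_eq_zero_of_right _ ?_
      by_contra h
      have h1 := (h0 _ h).1.2
      have h2 := hKO (ball_subset_closedBall hz)
      have hr : rep (cons0 (s - t) y) 0 = cons0 0 y := C4.rep_eq _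
      rw [mem_ofPred_eq, hr] at h2
      dsimp only at h1
      rw [hr] at h1
      exact hy (ht' ▸ (⟨h2, h1⟩ : cons0 0 y ∈ (e.restrOpen U hU).target))
    · exact indicator_of_notMem hz _

end Crest.Agent.N222.Lm

end
end

-- ▼ part N222/L/Conv

/-!
# Row 222, limit block (helper18): L6, convergence of curvature integrals (typed by helper31)
-/

set_option autoImplicit false
set_option linter.unusedSectionVars false
open MeasureTheory Set Filter Topology Function Metric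
open scoped ContDiff InnerProductSpace RealInnerProductSpace

noncomputable section

namespace Crest.Agent.N222

namespace Cv

open Lm

variable {m : ℕ} {ι : Type} [Fintype ι] [DecidableEq ι] {X : Type} [TopologicalSpace X]
  [T2Space X] [SecondCountableTopology X] [MeasurableSpace X] [BorelSpace X] [CompactSpace X]

theorem isOpen_Upos (𝒰 : Ultrafilter ℕ) (u : ℕ → X → ℝ) : IsOpen (Upos 𝒰 u) :=
  isOpen_iff_mem_nhds.2 fun _ ⟨N, hN, h⟩ =>
    mem_of_superset (eventually_mem_nhds_iff.2 hN) fun _ hq => ⟨N, hq, h⟩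

theorem isClosed_Sb (𝒰 : Ultrafilter ℕ) (u : ℕ → X → ℝ) : IsClosed (Sb 𝒰 u) :=
  ((isOpen_Upos _ _).union (isOpen_Upos _ _)).isClosed_compl

theorem integrable_gInt {M : Imm (m + 1) ι X} {Ψ : Dom X ι → ℝ} (hΨ : Continuous Ψ) {u : X → ℝ}
    (hu : M.Sm u) : Integrable (gInt M Ψ u) (M.gmu u) := by
  have := Imm.isFiniteMeasure_gmu hu
  refine Continuous.integrable_of_hasCompactSupport ?_ (HasCompactSupport.of_compactSpace _)
  unfold gInt
  rw [← Imm.graph_pre hu]
  exact hΨ.comp (continuous_id.prodMk (hu.continuous.prodMk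
    ((continuous_pi fun b => continuous_pi fun c => ((M.graph u hu).sm_P b c).continuous).prodMk
      (continuous_pi fun a => continuous_pi fun b => continuous_pi fun c =>
        (((M.graph u hu).sm_P b c).D a).continuous))))

theorem integrable_cyl {S K : Set X} (N : Imm m ι S) (hK : IsCompact (S ∩ K)) {T : ℝ}
    {Ψ : Dom X ι → ℝ} (hΨ : Continuous Ψ) (h0 : ∀ s, Ψ s ≠ 0 → s.1 ∈ K ∧ |s.2.1| ≤ T) :
    Integrable (fun z : S × ℝ => Ψ (z.1, z.2, N.cylP z.1, N.cylB z.1)) (N.mu.prod volume) := by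
  have h1 : Continuous N.cylP :=
    continuous_pi fun b => continuous_pi fun c => (N.sm_Pb b c).continuous
  have h2 : Continuous N.cylB := continuous_pi fun a => by
    cases a with
    | none => exact (continuous_const : Continuous fun _ : S => (fun _ _ => 0 : Option ι → Option ι → ℝ))
    | some a => exact continuous_pi fun b => continuous_pi fun c => ((N.sm_Pb b c).D a).continuous
  have h3 : IsCompact ((Subtype.val ⁻¹' K : Set S) ×ˢ Icc (-T) T) := by
    refine IsCompact.prod ?_ isCompact_Icc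
    rwa [Subtype.isCompact_iff, Subtype.image_preimage_coe]
  refine Continuous.integrable_of_hasCompactSupport (hΨ.comp (by fun_prop))
    (HasCompactSupport.intro h3 fun z hz => ?_)
  by_contra h
  exact hz ⟨(h0 _ h).1, abs_le.1 (h0 _ h).2⟩

/-- from local to global -/
theorem glue {K : Set X} (hK : IsCompact K) {T : ℝ} {P : (Dom X ι → ℝ) → Prop}
    (h0 : P fun _ => 0)
    (hadd : ∀ Ψ Ψ', Continuous Ψ → (∀ s, Ψ s ≠ 0 → s.1 ∈ K ∧ |s.2.1| ≤ T) → Continuous Ψ' →
      (∀ s, Ψ' s ≠ 0 → s.1 ∈ K ∧ |s.2.1| ≤ T) → P Ψ → P Ψ' → P fun s => Ψ s + Ψ' s)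
    (hloc : ∀ p ∈ K, ∀ t, ∃ O ∈ 𝓝 ((p, t) : X × ℝ), ∀ Ψ, Continuous Ψ →
      (∀ s, Ψ s ≠ 0 → s.1 ∈ K ∧ |s.2.1| ≤ T) → (∀ s, Ψ s ≠ 0 → (s.1, s.2.1) ∈ O) → P Ψ)
    {Ψ : Dom X ι → ℝ} (hΨ : Continuous Ψ) (hs : ∀ s, Ψ s ≠ 0 → s.1 ∈ K ∧ |s.2.1| ≤ T) : P Ψ := by
  have hc : IsCompact (K ×ˢ Icc (-T) T) := hK.prod isCompact_Icc
  have cm : ∀ {θ : X × ℝ → ℝ} {Ψ : Dom X ι → ℝ}, Continuous θ → Continuous Ψ →
      Continuous fun s : Dom X ι => θ (s.1, s.2.1) * Ψ s := fun hθ hΨ =>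
    (hθ.comp (by fun_prop)).mul hΨ
  obtain ⟨θ, hθ, hθ0, hpos, hP⟩ := hc.induction_on (p := fun A => ∃ θ : X × ℝ → ℝ, Continuous θ ∧
      (∀ z, 0 ≤ θ z) ∧ (∀ z ∈ A, 0 < θ z) ∧ ∀ Ψ, Continuous Ψ →
      (∀ s, Ψ s ≠ 0 → s.1 ∈ K ∧ |s.2.1| ≤ T) → P fun s => θ (s.1, s.2.1) * Ψ s)
    ⟨fun _ => 0, continuous_const, fun _ => le_rfl, fun _ h => h.elim, fun Ψ _ _ => by
      simpa using h0⟩
    (fun A B hAB ⟨θ, h1, h2, h3, h4⟩ => ⟨θ, h1, h2, fun z hz => h3 z (hAB hz), h4⟩)
    (fun A B ⟨θ, h1, h2, h3, h4⟩ ⟨θ', h1', h2', h3', h4'⟩ => ⟨fun z => θ z + θ' z, h1.add h1',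
      fun z => add_nonneg (h2 z) (h2' z), fun z hz => hz.elim
        (fun h => add_pos_of_pos_of_nonneg (h3 z h) (h2' z))
        fun h => add_pos_of_nonneg_of_pos (h2 z) (h3' z h), fun Ψ hΨ hs => by
      simp only [add_mul]
      exact hadd _ _ (cm h1 hΨ) (fun s h => hs s (right_ne_zero_of_mul h)) (cm h1' hΨ)
        (fun s h => hs s (right_ne_zero_of_mul h)) (h4 Ψ hΨ hs) (h4' Ψ hΨ hs)⟩)
    (fun z hz => by
      obtain ⟨O, hO, h⟩ := hloc z.1 hz.1 z.2
      obtain ⟨f, f1, f0, -, f01⟩ := exists_continuous_one_zero_of_isCompact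
        (isCompact_singleton (x := z)) (isOpen_interior (s := O)).isClosed_compl
        (disjoint_singleton_left.2 fun h => h (mem_interior_iff_mem_nhds.2 hO))
      refine ⟨{y | 0 < f y}, mem_nhdsWithin_of_mem_nhds
        ((isOpen_lt continuous_const f.continuous).mem_nhds (by simp [f1 rfl])), f, f.continuous,
        fun y => (f01 y).1, fun y hy => hy, fun Ψ hΨ hs => h _ (cm f.continuous hΨ)
          (fun s h => hs s (right_ne_zero_of_mul h)) fun s h => interior_subset ?_⟩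
      by_contra h'
      exact left_ne_zero_of_mul h (f0 h'))
  obtain ⟨a, ha, hle⟩ := hc.exists_forall_le' hθ.continuousOn hpos
  have hm : ∀ z, max (θ z) a ≠ 0 := fun z => (lt_max_of_lt_right ha).ne'
  have := hP (fun s => (max (θ (s.1, s.2.1)) a)⁻¹ * Ψ s)
    (cm ((hθ.max continuous_const).inv₀ hm) hΨ) fun s h => hs s (right_ne_zero_of_mul h)
  convert this using 2 with s
  by_cases h : Ψ s = 0
  · simp [h]
  · have h1 := hle (s.1, s.2.1) ⟨(hs s h).1, abs_le.1 (hs s h).2⟩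
    rw [max_eq_left h1, mul_inv_cancel_left₀ (ha.trans_le h1).ne']

end Cv

open Cv Lm in
theorem conv_of (hC : CylStmt) (hN : NetStmt) (hB : BoxStmt) (hA : AllHtStmt) : ConvStmt := by
  intro m ι _ _ X _ _ _ _ _ _ M F h Λ 𝒰 u τ s hinj hF hseq
  have hC := (hC m ι X M F h Λ 𝒰 u τ s hinj hF hseq).2
  have hU := (hN m ι X M F h Λ 𝒰 u τ s hinj hF hseq).1.isOpen_compl
  have hB := hB m ι X M F h Λ 𝒰 u τ s hinj hF hseq
  have hA := hA m ι X M F h Λ 𝒰 u τ s hinj hF hseq
  have hu : ∀ j, M.Sm (u j) := fun j => (hseq.adm j).sm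
  have hsl : ∀ {p t e ρ c}, Box M 𝒰 u p t e ρ c → ∀ q ∈ e.source ∩ (M.Bad 𝒰 u)ᶜ,
      q ∈ M.Sig 𝒰 u ↔ e q 0 = 0 := fun B q hq =>
    ⟨fun h => (B.slice q hq.1).1 h.1, fun h => ⟨(B.slice q hq.1).2 h, hq.2⟩⟩
  have hch : ∀ q ∈ M.Sig 𝒰 u, ∃ e : OpenPartialHomeomorph X (E (Fin (m + 1))), IsChart M.x e ∧
      q ∈ e.source ∧ ∀ p ∈ e.source, p ∈ M.Sig 𝒰 u ↔ e p 0 = 0 := fun q hq => by
    obtain ⟨e, ρ, c, B⟩ := hB q hq.1 0 (hA q hq 0)
    exact ⟨e.restrOpen _ hU, B.ch.restr hU, ⟨B.mem, hq.2⟩, hsl B⟩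
  obtain ⟨N, hNx⟩ := M.exists_slice hch
  refine ⟨N, hNx, fun z hz => ?_, fun Ψ K T hΨ hK hd hs => ?_⟩
  · obtain ⟨z', h1, h2, h3⟩ := exists_ext hU (fun q hq => hq.2) hch hNx hz
    exact ⟨z', h1, subset_compl_iff_disjoint_right.1 h2, h3⟩
  have hK' : IsCompact (M.Sig 𝒰 u ∩ K) := by
    have : M.Sig 𝒰 u ∩ K = Sb 𝒰 u ∩ K := Set.ext fun q =>
      ⟨fun h => ⟨h.1.1, h.2⟩, fun h => ⟨⟨h.1, disjoint_left.1 hd h.2⟩, h.2⟩⟩
    rw [this]
    exact hK.inter_left (Cv.isClosed_Sb _ _)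
  refine glue (P := fun Ψ => Tendsto (fun j => ∫ q, gInt M Ψ (u j) q ∂M.gmu (u j)) 𝒰
    (𝓝 (∫ q : M.Sig 𝒰 u, (∫ t : ℝ, Ψ (q, t, N.cylP q, N.cylB q)) ∂N.mu))) hK (by simp [gInt])
    (fun Ψ Ψ' h1 h2 h1' h2' h3 h3' => ?_) (fun p hp t => ?_) hΨ hs
  · rw [integral_integral_add (integrable_cyl N hK' h1 h2) (integrable_cyl N hK' h1' h2')]
    exact (h3.add h3').congr fun j =>
      (integral_add (integrable_gInt h1 (hu j)) (integrable_gInt h1' (hu j))).symm
  by_cases hp' : p ∈ Sb 𝒰 u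
  · have hq : p ∈ M.Sig 𝒰 u := ⟨hp', disjoint_left.1 hd hp⟩
    obtain ⟨e, ρ, c, B⟩ := hB p hp' t (hA p hq t)
    obtain ⟨N0, hN0, δ, hδ, hcov⟩ := B.cover
    have hρ := half_pos B.pos
    have h1 : {q | ‖e q‖ < ρ / 2} ∈ 𝓝 p :=
      (e.continuousAt B.mem).norm.eventually_lt_const (by simpa [B.zero] using B.pos)
    refine ⟨(N0 ∩ ((e.source ∩ (M.Bad 𝒰 u)ᶜ) ∩ {q | ‖e q‖ < ρ / 2})) ×ˢ ball t (min δ (ρ / 2)),
      prod_mem_nhds (inter_mem hN0 (inter_mem ((e.open_source.inter hU).mem_nhds ⟨B.mem, hq.2⟩) h1))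
        (ball_mem_nhds t (lt_min hδ hρ)), fun Ψ hΨ _ hO => ?_⟩
    rw [← integral_cInt hΨ B.ch B.sub hU (hsl B) hNx ⟨p, hq⟩ fun s h =>
      ⟨(hO s h).1.2.1, (hO s h).1.2.2, (lt_min_iff.1 (hO s h).2).2⟩]
    exact tendsto_box hinj hu B hΨ (hcov.mono fun j hj q h =>
      (hj q (hO _ h).1.1 (lt_min_iff.1 (hO _ h).2).1).1)
  · obtain ⟨N0, hN0, hev⟩ := hC p hp' T
    refine ⟨(N0 ∩ (Sb 𝒰 u)ᶜ) ×ˢ univ, prod_mem_nhds (inter_mem hN0
      ((Cv.isClosed_Sb _ _).isOpen_compl.mem_nhds hp')) univ_mem, fun Ψ _ hs hO => ?_⟩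
    have e1 : ∀ (q : M.Sig 𝒰 u) (t : ℝ), Ψ (q, t, N.cylP q, N.cylB q) = 0 := fun q t => by
      by_contra h
      exact (hO _ h).1.2 q.2.1
    simp only [e1, integral_zero]
    refine tendsto_const_nhds.congr' (hev.mono fun j hj => ?_)
    have e2 : ∀ q, gInt M Ψ (u j) q = 0 := fun q => by
      by_contra h
      exact (hj q (hO _ h).1.1).not_ge (hs _ h).2
    simp only [e2, integral_zero]

end Crest.Agent.N222

end
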