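import Crest.Agent.N222.B.Defs2
import Crest.Agent.N222.F.Hess
import Crest.Agent.N222.F.Lip

-- ▼ part N222/B/Ind
section

/-!
# Row 222, part B: the induction on the dimension
-/

set_option autoImplicit false
open MeasureTheory Set Filter Topology Function Metric

noncomputable section

namespace Crest.Agent.N222

/-- no pointwise data on compact embedded manifolds of dimension `d` -/
def NoPt (d : ℕ) : Prop := ∀ (ι : Type) [Fintype ι] [DecidableEq ι] (X : Type)
  [TopologicalSpace X] [T2Space X] [SecondCountableTopology X] [MeasurableSpace X] [BorelSpace X]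
  [CompactSpace X] (M : Imm d ι X) (F om : X → ℝ) (a : Fin d → X → ℝ), Injective M.x →
  ¬ M.PtData F om a

/-- no form data in dimension `d` -/
def NoForm (d : ℕ) : Prop := ∀ (ι : Type) [Fintype ι] [DecidableEq ι] (X : Type)
  [TopologicalSpace X] [T2Space X] [SecondCountableTopology X] [MeasurableSpace X] [BorelSpace X]
  (M : Imm d ι X) (V om : X → ℝ) (a : Fin d → X → ℝ), ¬ M.FormData V om a

theorem noForm_of_noPt (hC : CloseStmt) (hE : EmbStmt) {d : ℕ} (h : NoPt d) : NoForm d := by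
  intro ι _ _ X _ _ _ _ _ M V om a hM
  obtain ⟨ι', _, _, Y, _, _, _, _, _, N, hY, F, om', a', hN⟩ := hC d ι X M V om a hM
  obtain ⟨ι'', _, _, Z, _, _, _, _, _, P, hZ, hP, F', om'', a'', hP'⟩ := hE d ι' Y N hY F om' a' hN
  exact h ι'' Z P F' om'' a'' hP hP'

theorem noPt_zero : NoPt 0 := by
  intro ι _ _ X _ _ _ _ _ _ M F om a _ h
  obtain ⟨s, hs, hI⟩ := h.ineq
  obtain ⟨p, hp, -⟩ := h.ess a (fun i => i.elim0) fun _ _ _ => rfl
  have hD : ∀ c f, M.pre.D c f = 0 := fun c f => funext fun q => by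
    change fderiv ℝ (f ∘ (M.ch q).symm) (M.ch q q) _ = 0
    exact (congrArg _ (Subsingleton.elim _ 0)).trans (map_zero _)
  have hE : M.pre.EF F = 0 := by
    simp [Pre.EF, Pre.scal, Pre.Ric, Pre.Rm, Pre.II, Pre.hess, Pre.lap, Pre.gam, hD]
  have := hI p hp
  simp [hE] at this
  exact absurd hs (not_lt.2 this)

theorem isOpen_Upos {X : Type} [TopologicalSpace X] (𝒰 : Ultrafilter ℕ) (u : ℕ → X → ℝ) :
    IsOpen (Upos 𝒰 u) := by
  refine isOpen_iff_mem_nhds.2 fun p ⟨N, hN, h⟩ => ?_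
  filter_upwards [eventually_mem_nhds_iff.2 hN] with q hq
  exact ⟨N, hq, h⟩

theorem disjoint_Upos {X : Type} [TopologicalSpace X] (𝒰 : Ultrafilter ℕ) (u : ℕ → X → ℝ) :
    Disjoint (Upos 𝒰 u) (Upos 𝒰 fun j q => -u j q) := by
  refine Set.disjoint_left.2 fun p ⟨N, hN, h⟩ ⟨N', hN', h'⟩ => ?_
  obtain ⟨j, h1, h2⟩ := (h.and h').exists
  have := h1 p (mem_of_mem_nhds hN)
  have := h2 p (mem_of_mem_nhds hN')
  linarith

theorem isClosed_Sb {X : Type} [TopologicalSpace X] (𝒰 : Ultrafilter ℕ) (u : ℕ → X → ℝ) :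
    IsClosed (Sb 𝒰 u) := ((isOpen_Upos 𝒰 u).union (isOpen_Upos 𝒰 _)).isClosed_compl

theorem Imm.cost_nonneg {d : ℕ} {ι : Type} [Fintype ι] [DecidableEq ι] {X : Type}
    [TopologicalSpace X] (M : Imm d ι X) (om a : X → ℝ) (p : X) : 0 ≤ M.cost om a p := by
  unfold Imm.cost; positivity

theorem noPt_succ (hSeq : SeqStmt) (h0 : Step0Stmt) (hLim : LimStmt) (hE2 : Ess2Stmt)
    (hSh : ShieldStmt) {m : ℕ} (ih : NoForm m) : NoPt (m + 1) := by
  intro ι _ _ X _ _ _ _ _ _ M F om a hM h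
  obtain ⟨r0, C, hr0, hC, hs⟩ := hSeq (m + 1) ι X M F hM h.smF
  obtain ⟨g, k, s, hg, hk, hgk, hs0, halt⟩ := h0 m ι X M F om a hM h r0 C hr0 hC
  obtain ⟨Λ, 𝒰, u, τ, σ, hu, hbar⟩ := hs g hg
  obtain ⟨N, hN⟩ := hLim m ι X M F g Λ 𝒰 u τ σ hM h.smF hu k hk hgk
  have halt' : ∀ p ∈ tsupport om, (s + ∑ i : Fin m, M.cost om (a i.succ) p ≤
      (M.pre.EF F p + g p ^ 2 - 2 * k p) * om p ^ 4 + ∑ i : Fin m, a i.succ p ^ 2) ∨
      (0 < a 0 p ∧ p ∈ Upos 𝒰 u) ∨ (a 0 p < 0 ∧ p ∈ Upos 𝒰 fun j q => -u j q) := by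
    intro p hp
    rcases halt p hp with h1 | ⟨r, hr, hr', ⟨h1, h2⟩ | ⟨h1, h2⟩⟩
    · exact .inl h1
    · exact .inr (.inl ⟨h1, (hbar r p hr hr').1 h2⟩)
    · exact .inr (.inr ⟨h1, (hbar r p hr hr').2 h2⟩)
  have hess := hE2 X m om a (Upos 𝒰 u) (Upos 𝒰 fun j q => -u j q) h.smo.continuous
    (fun i => (h.sma i).continuous) (isOpen_Upos 𝒰 u) (isOpen_Upos 𝒰 _) (disjoint_Upos 𝒰 u)
    (fun p hp hom ha => (halt' p hp).resolve_left fun h1 => by
      have := Finset.sum_nonneg fun (i : Fin m) (_ : i ∈ Finset.univ) =>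
        M.cost_nonneg om (a i.succ) p
      simp [hom, ha] at h1
      linarith) h.ess
  obtain ⟨V, om', a', hD⟩ := hSh m ι X M F _ om (fun i => a i.succ) _ _ N s hM h.smF
    ((h.smF.EF.add (hg.pow 2)).sub ((Imm.sm_const 2).mul hk)) h.smo (fun i => h.sma _)
    (isClosed_Sb 𝒰 u) hN hs0 (fun p hpS hp => (halt' p hp).resolve_right fun h1 =>
      hpS (h1.elim (fun h2 => .inl h2.2) fun h2 => .inr h2.2)) hess
  exact ih ι _ N V om' a' hD

/-- **B** from its leaves -/
theorem b_of (hC : CloseStmt) (hE : EmbStmt) (hSeq : SeqStmt) (h0 : Step0Stmt) (hLim : LimStmt)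
    (hE2 : Ess2Stmt) (hSh : ShieldStmt) : BStmt := by
  have h : ∀ d, NoForm d := fun d => by
    induction d with
    | zero => exact noForm_of_noPt hC hE noPt_zero
    | succ m ih => exact noForm_of_noPt hC hE (noPt_succ hSeq h0 hLim hE2 hSh ih)
  intro d ι _ _ X _ _ _ _ _ M V om a
  exact h d ι X M V om a

end Crest.Agent.N222

end
end

-- ▼ part N222/L/Lim1
section

/-!
# Row 222, limit block (helper18): the stability integrand as a function of the jets
-/

set_option autoImplicit false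
set_option linter.unusedSectionVars false
open MeasureTheory Set Filter Topology Function Metric
open scoped ContDiff InnerProductSpace RealInnerProductSpace

noncomputable section

namespace Crest.Agent.N222.Lm

/-- long cut-off functions -/
theorem exists_eta {ε : ℝ} (hε : 0 < ε) : ∃ (η : ℝ → ℝ) (T : ℝ), ContDiff ℝ ∞ η ∧
    (∀ t, T < |t| → η t = 0 ∧ deriv η t = 0) ∧ 0 < ∫ t, η t ^ 2 ∧
    ∫ t, deriv η t ^ 2 ≤ ε * ∫ t, η t ^ 2 := by
  let b : ContDiffBump (0 : ℝ) := ⟨1, 2, one_pos, one_lt_two⟩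
  have hb : ContDiff ℝ ∞ b := b.contDiff
  have hα : 0 < ∫ t, b t ^ 2 := by
    refine Continuous.integral_pos_of_hasCompactSupport_nonneg_nonzero (x := 0)
      (hb.continuous.pow 2) (b.hasCompactSupport.comp_left (g := fun s : ℝ => s ^ 2) (by simp))
      (fun _ => sq_nonneg _) ?_
    rw [b.one_of_mem_closedBall (mem_closedBall_self b.rIn_pos.le)]
    simp
  have hβ : 0 ≤ ∫ t, deriv b t ^ 2 := integral_nonneg fun _ => sq_nonneg _
  set α := ∫ t, b t ^ 2
  set β := ∫ t, deriv b t ^ 2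
  obtain ⟨c, c0, c1, c2⟩ : ∃ c : ℝ, 0 < c ∧ c ≤ 1 ∧ c * (β + 1) ≤ ε * α :=
    ⟨min 1 (ε * α / (β + 1)), by positivity, min_le_left _ _,
      (le_div_iff₀ (by positivity)).1 (min_le_right _ _)⟩
  have h1 : ∫ t, b (c * t) ^ 2 = c⁻¹ * α := by
    rw [Measure.integral_comp_mul_left (fun t => b t ^ 2), abs_of_pos (inv_pos.2 c0), smul_eq_mul]
  have h2 : ∫ t, deriv (fun t => b (c * t)) t ^ 2 = c * β := by
    simp only [deriv_comp_mul_left, smul_eq_mul, mul_pow]
    rw [integral_const_mul, Measure.integral_comp_mul_left (fun t => deriv b t ^ 2),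
      abs_of_pos (inv_pos.2 c0), smul_eq_mul]
    field_simp
    rfl
  refine ⟨fun t => b (c * t), 2 / c, hb.comp (contDiff_const.mul contDiff_id), fun t ht => ?_,
    h1 ▸ by positivity, ?_⟩
  · have h0 : b (c * t) = 0 := by
      refine b.zero_of_le_dist ?_
      rw [dist_zero_right, Real.norm_eq_abs, abs_mul, abs_of_pos c0]
      rw [div_lt_iff₀' c0] at ht
      exact ht.le
    exact ⟨h0, IsLocalMin.deriv_eq_zero (.of_forall fun s => h0.le.trans b.nonneg)⟩
  · rw [h1, h2, mul_left_comm, ← div_eq_inv_mul, le_div_iff₀ c0]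
    nlinarith [mul_nonneg c0.le hβ]

variable {ι : Type} [Fintype ι]

/-- `|∇ζ|²` for `ζ = z η`: `z1 = ∇z`, `η1 = η'` -/
def gamJ (P : Option ι → Option ι → ℝ) (z η η1 : ℝ) (z1 : ι → ℝ) : ℝ :=
  ∑ c, (η * ∑ b, P c (some b) * z1 b + z * η1 * P c none) ^ 2

/-- `E(F)`: `F1 = ∇F`, `F2 = D D F` -/
def efJ (P : Option ι → Option ι → ℝ) (B : Option ι → Option ι → Option ι → ℝ) (F1 : ι → ℝ)
    (F2 : ι → ι → ℝ) : ℝ :=
  (∑ c, (∑ a, B a a c) ^ 2 - (∑ a, ∑ b, ∑ c, B a b c ^ 2) / 2)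
    - 2 * ∑ a, ∑ b, (B a a (some b) * F1 b + P a (some b) * ∑ e, P a (some e) * F2 e b)
    - ∑ a, (∑ b, P a (some b) * F1 b) ^ 2

/-- `|H|²` -/
def hJ (B : Option ι → Option ι → Option ι → ℝ) : ℝ := ∑ c, (∑ a, B a a c) ^ 2

variable [DecidableEq ι] {d m : ℕ} {X Y : Type} [TopologicalSpace X] [MeasurableSpace X]
  [TopologicalSpace Y] [MeasurableSpace Y] {M : Imm d ι X} {N : Imm m ι Y} {u z F : X → ℝ}

theorem gD (hu : M.Sm u) (hz : M.Sm z) (c : Option ι) : (M.gS u).D c z =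
    fun q => ∑ b, (M.gS u).P c (some b) q * M.pre.D b z q := by
  have := congrArg M.val (M.isDS.gD ⟨u, hu⟩ ⟨_, hu.vv⟩ c ⟨z, hz⟩)
  simp only [map_sum, map_mul, (Imm.ghom hu).P, (Imm.ghom hu).D, M.hom.D] at this
  funext q
  simpa using congrFun this q

theorem gam_graph (hu : M.Sm u) (hz : M.Sm z) {η : ℝ → ℝ} (hη : ContDiff ℝ ∞ η) (q : X) :
    (M.gS u).gam (fun p => z p * η (u p)) (fun p => z p * η (u p)) q =
      gamJ (fun b c => (M.gS u).P b c q) (z q) (η (u q)) (deriv η (u q))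
        fun b => M.pre.D b z q := by
  have h1 := Imm.Sm.diffAt (M := M.graph u hu) hz q
  have h2 := Imm.Sm.diffAt (M := M.graph u hu) hu q
  have h3 := Imm.Sm.diffAt (M := M.graph u hu) (hu.comp hη) q
  have h4 := Imm.gam_apply (M := M.graph u hu) (fun p => z p * η (u p)) (fun p => z p * η (u p)) q
  simp only [Imm.D_mul h1 h3, Imm.D_comp h2 (hη.differentiable (by simp) _).hasDerivAt] at h4
  simp only [Imm.graph_pre hu, gD hu hz] at h4
  rw [h4, gamJ]
  refine Finset.sum_congr rfl fun c _ => ?_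
  rw [show (M.gS u).P c none q = (M.gS u).D c u q from rfl]
  ring

theorem ef_graph (hu : M.Sm u) (hF : M.Sm F) (q : X) : (M.gS u).EF F q =
    efJ (fun b c => (M.gS u).P b c q) (fun a b c => (M.gS u).D a ((M.gS u).P b c) q)
      (fun b => M.pre.D b F q) fun e b => M.pre.D e (M.pre.D b F) q := by
  have h1 := (M.graph u hu).scal_DP q
  have h2 : ∀ a, (M.graph u hu).pre.D a (fun q => ∑ b, (M.graph u hu).pre.P a (some b) q *
      M.pre.D b F q) q = ∑ b, ((M.graph u hu).pre.P a (some b) q *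
        (M.graph u hu).pre.D a (M.pre.D b F) q +
        (M.graph u hu).pre.D a ((M.graph u hu).pre.P a (some b)) q * M.pre.D b F q) := fun a => by
    rw [Imm.D_sum _ fun b _ => (((M.graph u hu).sm_P a (some b)).mul (hF.D b)).diffAt q]
    exact Finset.sum_congr rfl fun b _ => Imm.D_mul (((M.graph u hu).sm_P a (some b)).diffAt q)
      (Imm.Sm.diffAt (M := M.graph u hu) (hF.D b) q) a
  have h3 := Imm.EF_apply (M := M.graph u hu) F q
  rw [Imm.lap_apply, Imm.gam_apply] at h3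
  simp only [Imm.graph_pre hu] at h1 h2 h3
  simp only [gD hu hF, h2, gD hu (hF.D _)] at h3
  rw [h3, efJ]
  simp only [sq, add_comm (_ * M.pre.D _ F q)]
  linarith

theorem h_graph (M : Imm d ι X) (u : X → ℝ) (q : X) :
    ‖(WithLp.toLp 2 fun c => (M.gS u).H c q : E (Option ι))‖ ^ 2 =
      hJ fun a b c => (M.gS u).D a ((M.gS u).P b c) q := by
  rw [EuclideanSpace.real_norm_sq_eq, hJ]
  simp [Pre.H, Pre.lap, Pre.P]

variable {j : Y → X}

omit [MeasurableSpace Y] in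
theorem cyl_simp (N : Imm m ι Y) (q : Y) :
    N.cylP q none none = 1 ∧ (∀ a, N.cylP q none (some a) = 0) ∧ (∀ a, N.cylP q (some a) none = 0) ∧
    (∀ a b, N.cylP q (some a) (some b) = N.pre.P a b q) ∧ (∀ b c, N.cylB q none b c = 0) ∧
    (∀ a c, N.cylB q (some a) none c = 0) ∧ (∀ a b, N.cylB q (some a) (some b) none = 0) ∧
    ∀ a b c, N.cylB q (some a) (some b) (some c) = N.pre.D a (N.pre.P b c) q := by
  refine ⟨rfl, fun _ => rfl, fun _ => rfl, fun _ _ => rfl, fun _ _ => rfl, fun a c => ?_,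
    fun a b => Imm.D_const 0 a q, fun _ _ _ => rfl⟩
  cases c with
  | none => exact Imm.D_const 1 a q
  | some c => exact Imm.D_const 0 a q

theorem gam_cyl (h : ∀ q, Loc N M j q) (hz : M.Sm z) (η η1 : ℝ) (q : Y) :
    gamJ (N.cylP q) (z (j q)) η η1 (fun b => M.pre.D b z (j q)) =
      η ^ 2 * N.pre.gam (fun q => z (j q)) (fun q => z (j q)) q + η1 ^ 2 * z (j q) ^ 2 := by
  obtain ⟨a1, a2, a3, a4, -⟩ := cyl_simp N q
  simp only [gamJ, Fintype.sum_option, a1, a2, a3, a4, Imm.gam_apply, (h q).D (hz.diffAt _),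
    zero_mul, Finset.sum_const_zero, mul_zero, add_zero, zero_add, mul_one]
  rw [add_comm, Finset.mul_sum _ _ (η ^ 2)]
  congr 1
  · exact Finset.sum_congr rfl fun _ _ => by ring
  · ring

theorem ef_cyl (h : ∀ q, Loc N M j q) (hF : M.Sm F) (q : Y) :
    efJ (N.cylP q) (N.cylB q) (fun b => M.pre.D b F (j q))
      (fun e b => M.pre.D e (M.pre.D b F) (j q)) = N.pre.EF (fun q => F (j q)) q := by
  obtain ⟨-, a2, -, a4, a5, a6, a7, a8⟩ := cyl_simp N q
  have h0 : ∀ a, N.pre.D a (fun q => F (j q)) =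
      fun q => ∑ b, N.pre.P a b q * M.pre.D b F (j q) := fun a =>
    funext fun q => (h q).D (hF.diffAt _) a
  have h1 := N.scal_DP q
  have h2 : ∀ a, N.pre.D a (fun q => ∑ b, N.pre.P a b q * M.pre.D b F (j q)) q =
      ∑ b, (N.pre.D a (N.pre.P a b) q * M.pre.D b F (j q) +
        N.pre.P a b q * ∑ e, N.pre.P a e q * M.pre.D e (M.pre.D b F) (j q)) := fun a => by
    rw [Imm.D_sum _ fun b _ => ((N.sm_P a b).mul ((hF.D b).res h)).diffAt q]
    refine Finset.sum_congr rfl fun b _ => ?_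
    rw [Imm.D_mul ((N.sm_P a b).diffAt q) (((hF.D b).res h).diffAt q),
      (h q).D ((hF.D b).diffAt _), add_comm]
  rw [Imm.EF_apply, Imm.lap_apply, Imm.gam_apply]
  simp only [h0, h2, efJ, Fintype.sum_option, a2, a4, a5, a6, a7, a8, sq, zero_mul,
    Finset.sum_const_zero, add_zero, zero_add]
  linarith

theorem h_cyl (N : Imm m ι Y) (q : Y) : hJ (N.cylB q) = ‖N.Hv q‖ ^ 2 := by
  obtain ⟨-, -, -, -, a5, -, a7, a8⟩ := cyl_simp N q
  rw [EuclideanSpace.real_norm_sq_eq, hJ]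
  simp [Fintype.sum_option, a5, a7, a8, Imm.Hv, Pre.H, Pre.lap, Pre.P]

omit [DecidableEq ι] in
theorem cont_gamJ {Z : Type} [TopologicalSpace Z] {P : Z → Option ι → Option ι → ℝ}
    {z η η1 : Z → ℝ} {z1 : Z → ι → ℝ} (hP : Continuous P) (hz : Continuous z) (hη : Continuous η)
    (hη1 : Continuous η1) (hz1 : Continuous z1) :
    Continuous fun s => gamJ (P s) (z s) (η s) (η1 s) (z1 s) := by
  unfold gamJ
  fun_prop

omit [DecidableEq ι] in
theorem cont_efJ {Z : Type} [TopologicalSpace Z] {P : Z → Option ι → Option ι → ℝ}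
    {B : Z → Option ι → Option ι → Option ι → ℝ} {F1 : Z → ι → ℝ} {F2 : Z → ι → ι → ℝ}
    (hP : Continuous P) (hB : Continuous B) (h1 : Continuous F1) (h2 : Continuous F2) :
    Continuous fun s => efJ (P s) (B s) (F1 s) (F2 s) := by
  unfold efJ
  fun_prop

omit [DecidableEq ι] in
theorem cont_hJ : Continuous (hJ : (Option ι → Option ι → Option ι → ℝ) → ℝ) := by
  unfold hJ
  fun_prop

end Crest.Agent.N222.Lm

end
end

-- ▼ part N222/L/Lim

/-!
# Row 222, limit block (helper18): L7, the slice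
-/

set_option autoImplicit false
set_option linter.unusedSectionVars false
open MeasureTheory Set Filter Topology Function Metric
open scoped ContDiff InnerProductSpace RealInnerProductSpace

noncomputable section

namespace Crest.Agent.N222

namespace Lm

/-- stability of the graphs -/
theorem stab_graph (hP : PicStmt) {d : ℕ} {ι : Type} [Fintype ι] [DecidableEq ι] {X : Type}
    [TopologicalSpace X] [T2Space X] [SecondCountableTopology X] [MeasurableSpace X] [BorelSpace X]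
    [CompactSpace X] {M : Imm d ι X} {F h k u ζ : X → ℝ} {τ σ ε : ℝ} (hF : M.Sm F) (hh : M.Sm h)
    (hk : M.Sm k) (hu : M.Sm u) (hζ : M.Sm ζ) (hτ : 0 ≤ τ)
    (heq : ∀ p, M.hF F u p = τ * u p + σ - h p) (hhk : ∀ p, √(M.pre.gam h h p) ≤ k p)
    (hε : ∀ p, ζ p ≠ 0 → h p ^ 2 - ε ≤ M.hF F u p ^ 2) :
    0 ≤ ∫ p, (2 * (M.gS u).gam ζ ζ p + ((M.gS u).EF F p -
      (M.pre.EF F p + h p ^ 2 - 2 * k p) + ε) * ζ p ^ 2) * Real.exp (F p) ∂M.gmu u := by
  have h1 := hP d (Option ι) X (M.graph u hu) F (M.vv u) ζ hF hu.vv (M.vv_pos u)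
    ⟨hζ, HasCompactSupport.of_compactSpace _⟩
  have c1 := (Imm.Sm.gam (M := M.graph u hu) hζ hζ).continuous
  have c2 := (Imm.Sm.lapF (M := M.graph u hu) hF hu.vv).continuous
  have c3 := (Imm.Sm.EF (M := M.graph u hu) hF).continuous
  rw [Imm.graph_pre hu] at h1 c1 c2 c3
  rw [Imm.graph_mu hu] at h1
  have := Imm.isFiniteMeasure_gmu hu
  have ig : ∀ {f : X → ℝ}, Continuous f → Integrable f (M.gmu u) := fun hf =>
    hf.integrable_of_hasCompactSupport (HasCompactSupport.of_compactSpace _)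
  have cF := hF.exp.continuous
  have cζ := hζ.continuous
  have i1 := ig (c1.mul cF)
  have i2 := ig (((c2.neg.div hu.vv.continuous fun p => (M.vv_pos u p).ne').mul (cζ.pow 2)).mul cF)
  have h2 : 0 ≤ ∫ p, 2 * ((M.gS u).gam ζ ζ p * Real.exp (F p) -
      -(M.gS u).lapF F (M.vv u) p / M.vv u p * ζ p ^ 2 * Real.exp (F p)) ∂M.gmu u := by
    rw [integral_const_mul]
    exact mul_nonneg zero_le_two ((sub_nonneg.2 h1).trans_eq (integral_sub i1 i2).symm)
  refine h2.trans (integral_mono ((i1.sub i2).const_mul 2) (ig ?_) fun p => ?_)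
  · have c4 := hF.EF.continuous
    have c5 := hh.continuous
    have c6 := hk.continuous
    fun_prop
  have hdir : -k p ≤ M.pre.dir (M.Xf u) (M.hF F u) p := by
    have e' : M.hF F u = fun p => τ * u p + σ - h p := funext heq
    have s1 := (Imm.sm_const τ).mul hu
    have e1 : M.pre.dir (M.Xf u) (M.hF F u) p =
        τ * M.pre.dir (M.Xf u) u p - M.pre.dir (M.Xf u) h p := by
      simp only [Imm.dir_apply, Finset.mul_sum, ← Finset.sum_sub_distrib]
      refine Finset.sum_congr rfl fun a _ => ?_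
      rw [e', Imm.D_sub ((s1.add (Imm.sm_const σ)).diffAt p) (hh.diffAt p),
        Imm.D_add (s1.diffAt p) ((Imm.sm_const σ).diffAt p), Imm.D_const,
        Imm.D_const_mul τ (hu.diffAt p)]
      ring
    have e2 : 0 ≤ M.pre.dir (M.Xf u) u p := by
      rw [Imm.dir_apply]
      refine Finset.sum_nonneg fun a _ => ?_
      rw [Imm.Xf_apply, mul_assoc]
      exact mul_nonneg (M.vv_pos u p).le (mul_self_nonneg _)
    have e3 := Imm.gam_self_nonneg (M := M.graph u hu) h p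
    rw [Imm.graph_pre hu, Imm.gS_gam] at e3
    have e4 := (le_abs_self _).trans ((Real.abs_le_sqrt (x := M.pre.dir (M.Xf u) h p)
      (y := M.pre.gam h h p) (by linarith)).trans (hhk p))
    linarith [mul_nonneg hτ e2]
  have hζ2 : (h p ^ 2 - ε) * ζ p ^ 2 ≤ M.hF F u p ^ 2 * ζ p ^ 2 := by
    by_cases h0 : ζ p = 0
    · simp [h0]
    · exact mul_le_mul_of_nonneg_right (hε p h0) (sq_nonneg _)
  have key : 2 * ((M.gS u).gam ζ ζ p - (M.a2 u p + M.pre.RicF F (M.Xf u) p +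
      M.pre.dir (M.Xf u) (M.hF F u) p) * ζ p ^ 2) ≤ 2 * (M.gS u).gam ζ ζ p + ((M.gS u).EF F p -
      (M.pre.EF F p + h p ^ 2 - 2 * k p) + ε) * ζ p ^ 2 := by
    rw [Imm.gauss hu hF]
    linarith [mul_le_mul_of_nonneg_right hdir (sq_nonneg (ζ p)),
      mul_nonneg (M.a2_nonneg u p) (sq_nonneg (ζ p))]
  have := mul_le_mul_of_nonneg_right key (Real.exp_pos (F p)).le
  beta_reduce
  rw [Imm.jacobi hu hF, mul_div_cancel_right₀ _ (M.vv_pos u p).ne']
  linarith

theorem intg_eta {η : ℝ → ℝ} {T : ℝ} (hη : Continuous η) (h : ∀ t, T < |t| → η t = 0) :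
    Integrable fun t => η t ^ 2 :=
  (hη.pow 2).integrable_of_hasCompactSupport (HasCompactSupport.intro (isCompact_Icc (a := -T)
    (b := T)) fun t ht => by simp [h t (not_le.1 fun h' => ht (abs_le.1 h'))])

theorem intg_lin {f g : ℝ → ℝ} (hf : Integrable f) (hg : Integrable g) (A B : ℝ) :
    ∫ t, (f t * A + g t * B) = (∫ t, f t) * A + (∫ t, g t) * B := by
  rw [integral_add (hf.mul_const _) (hg.mul_const _), integral_mul_const, integral_mul_const]

variable {m : ℕ} {ι : Type} [Fintype ι] [DecidableEq ι] {X : Type}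
  [TopologicalSpace X] [T2Space X] [SecondCountableTopology X] [MeasurableSpace X] [BorelSpace X]
  [CompactSpace X] {M : Imm (m + 1) ι X} {F h k : X → ℝ} {Λ : ℝ} {𝒰 : Ultrafilter ℕ}
  {u : ℕ → X → ℝ} {τ s : ℕ → ℝ} {N : Imm m ι (M.Sig 𝒰 u)}

/-- the convergence statement of `ConvStmt` -/
def Cv (N : Imm m ι (M.Sig 𝒰 u)) : Prop :=
  ∀ (Ψ : X × ℝ × (Option ι → Option ι → ℝ) × (Option ι → Option ι → Option ι → ℝ) → ℝ)
    (K : Set X) (T : ℝ), Continuous Ψ → IsCompact K → Disjoint K (M.Bad 𝒰 u) →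
    (∀ s, Ψ s ≠ 0 → s.1 ∈ K ∧ |s.2.1| ≤ T) →
    Tendsto (fun j => ∫ q, Ψ (q, u j q, fun b c => (M.gS (u j)).P b c q,
        fun a b c => (M.gS (u j)).D a ((M.gS (u j)).P b c) q) ∂M.gmu (u j)) 𝒰
      (𝓝 (∫ q : M.Sig 𝒰 u, (∫ t : ℝ, Ψ (q, t, N.cylP q, N.cylB q)) ∂N.mu))

theorem isCompact_pre {K : Set X} (hK : IsCompact K) (hd : Disjoint K (M.Bad 𝒰 u)) :
    IsCompact (Subtype.val ⁻¹' K : Set (M.Sig 𝒰 u)) := by
  rw [Subtype.isCompact_iff, Subtype.image_preimage_coe]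
  have : M.Sig 𝒰 u ∩ K = Sb 𝒰 u ∩ K :=
    Set.ext fun p => ⟨fun h => ⟨h.1.1, h.2⟩, fun h => ⟨⟨h.1, disjoint_left.1 hd h.2⟩, h.2⟩⟩
  rw [this]
  exact hK.inter_left (isClosed_Sb 𝒰 u)

/-- the mean curvature bound passes to the limit -/
theorem lim_H (hc : Cv N) (hB : IsClosed (M.Bad 𝒰 u)) {C : ℝ} (hC0 : 0 ≤ C)
    (hC : ∀ j, M.Sheet C (u j)) (q0 : M.Sig 𝒰 u) : ‖N.Hv q0‖ ≤ C := by
  obtain ⟨χ, hχ, hs, h01, h1⟩ := M.exists_bump (isCompact_singleton (x := q0.1)) hB.isOpen_compl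
    (singleton_subset_iff.2 q0.2.2)
  obtain ⟨η, T, hη, hT, ha, -⟩ := exists_eta one_pos
  have cχ := hχ.sm.continuous
  have cη := hη.continuous
  have cJ := cont_hJ (ι := ι)
  have hd : Disjoint (tsupport χ) (M.Bad 𝒰 u) := subset_compl_iff_disjoint_right.1 hs
  have l1 := hc (fun s => η s.2.1 ^ 2 * (χ s.1 * max 0 (hJ s.2.2.2 - C ^ 2))) (tsupport χ) T
    (by fun_prop) hχ.cs hd fun s hs => ⟨subset_tsupport _ fun h0 => hs (by simp [h0]),
      not_lt.1 fun h0 => hs (by simp [(hT _ h0).1])⟩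
  have e1 : ∀ j q, max 0 (hJ (fun a b c => (M.gS (u j)).D a ((M.gS (u j)).P b c) q) - C ^ 2) = 0 :=
    fun j q => max_eq_left (by
      rw [← h_graph]
      exact sub_nonpos.2 (pow_le_pow_left₀ (norm_nonneg _) ((hC j).H q) 2))
  simp only [e1, mul_zero, integral_zero, integral_mul_const, h_cyl] at l1
  have l2 := tendsto_nhds_unique l1 tendsto_const_nhds
  by_contra hq
  have cH : Continuous N.Hv := (Imm.sm_euclid.2 N.sm_H).continuous
  refine (Continuous.integral_pos_of_hasCompactSupport_nonneg_nonzero (x := q0)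
    (f := fun q : M.Sig 𝒰 u => (∫ t, η t ^ 2) * (χ q * max 0 (‖N.Hv q‖ ^ 2 - C ^ 2)))
    (continuous_const.mul ((cχ.comp continuous_subtype_val).mul
      (continuous_const.max ((cH.norm.pow 2).sub continuous_const))))
    (HasCompactSupport.intro (isCompact_pre hχ.cs hd) fun q hq => ?_)
    (fun q => mul_nonneg ha.le (mul_nonneg (h01 _).1 (le_max_left _ _))) ?_).ne' l2
  · simp [image_eq_zero_of_notMem_tsupport (f := χ) hq]
  · rw [h1.self_of_nhdsSet _ rfl, one_mul, max_eq_right]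
    · exact mul_ne_zero ha.ne' (sub_pos.2 (pow_lt_pow_left₀ (not_le.1 hq) hC0 two_ne_zero)).ne'
    · exact (sub_pos.2 (pow_lt_pow_left₀ (not_le.1 hq) hC0 two_ne_zero)).le

theorem ev_hF (hs : M.Seq F h Λ 𝒰 u τ s) {ε : ℝ} (hε : 0 < ε) (T : ℝ) :
    ∀ᶠ j in (𝒰 : Filter ℕ), ∀ p, |u j p| ≤ T → h p ^ 2 - ε ≤ M.hF F (u j) p ^ 2 := by
  obtain ⟨B, hB0, hB⟩ := Imm.exists_bound hs.smh.continuous
  have l : Tendsto (fun j => 2 * ((τ j * T + |s j|) * B)) 𝒰 (𝓝 0) := by
    simpa using (((hs.tau.mul_const T).add hs.sh.abs).mul_const B).const_mul 2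
  filter_upwards [l.eventually (gt_mem_nhds hε)] with j hj p hp
  have a1 : |τ j * u j p + s j| ≤ τ j * T + |s j| := by
    refine (abs_add_le _ _).trans (add_le_add ?_ le_rfl)
    rw [abs_mul, abs_of_pos (hs.pos j)]
    exact mul_le_mul_of_nonneg_left hp (hs.pos j).le
  have a2 : (τ j * u j p + s j) * h p ≤ (τ j * T + |s j|) * B := by
    refine (le_abs_self _).trans ?_
    rw [abs_mul]
    exact mul_le_mul a1 (hB p) (abs_nonneg _) ((abs_nonneg _).trans a1)
  rw [hs.eq]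
  nlinarith [sq_nonneg (τ j * u j p + s j)]

/-- the stability inequality passes to the limit, up to `ε` -/
theorem lim_form (hP : PicStmt) (hc : Cv N) (hx : ∀ q, N.x q = M.x q) (hF : M.Sm F)
    (hs : M.Seq F h Λ 𝒰 u τ s) (hk : M.Sm k) (hhk : ∀ p, √(M.pre.gam h h p) ≤ k p) {z : X → ℝ}
    (hz : M.Sm z) (hd : Disjoint (tsupport z) (M.Bad 𝒰 u)) (hN : N.Tst fun q => z q) {ε : ℝ}
    (hε : 0 < ε) : 0 ≤ (∫ q, (2 * N.pre.gam (fun q => z q) (fun q => z q) q +
      (N.pre.EF (fun q => F q) q - (M.pre.EF F q + h q ^ 2 - 2 * k q)) * z q ^ 2) *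
        Real.exp (F q) ∂N.mu) + ε * (3 * ∫ q, z q ^ 2 * Real.exp (F q) ∂N.mu) := by
  obtain ⟨η, T, hη, hT, ha, hb⟩ := exists_eta hε
  have loc := Loc.of_cont continuous_subtype_val hx
  have cη := hη.continuous
  have cη' := hη.continuous_deriv (by simp)
  have cz := hz.continuous
  have cF := hF.continuous
  have cG : Continuous fun p => M.pre.EF F p + h p ^ 2 - 2 * k p :=
    (hF.EF.continuous.add (hs.smh.continuous.pow 2)).sub (continuous_const.mul hk.continuous)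
  have l1 := hc (fun s => (2 * gamJ s.2.2.1 (z s.1) (η s.2.1) (deriv η s.2.1)
      (fun b => M.pre.D b z s.1) + (efJ s.2.2.1 s.2.2.2 (fun b => M.pre.D b F s.1)
      (fun e b => M.pre.D e (M.pre.D b F) s.1) - (M.pre.EF F s.1 + h s.1 ^ 2 - 2 * k s.1) + ε) *
      (z s.1 * η s.2.1) ^ 2) * Real.exp (F s.1)) (tsupport z) T ?_
    (isClosed_tsupport z).isCompact hd fun s hs => ⟨?_, ?_⟩
  rotate_left
  · refine ((continuous_const.mul (cont_gamJ (by fun_prop) (by fun_prop) (by fun_prop)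
      (by fun_prop) (continuous_pi fun b => (hz.D b).continuous.comp continuous_fst))).add
      ((((cont_efJ (by fun_prop) (by fun_prop)
        (continuous_pi fun b => (hF.D b).continuous.comp continuous_fst)
        (continuous_pi fun e => continuous_pi fun b =>
          ((hF.D b).D e).continuous.comp continuous_fst)).sub (cG.comp continuous_fst)).add
        continuous_const).mul (by fun_prop))).mul (by fun_prop)
  · by_contra h0
    exact hs (by simp [gamJ, image_eq_zero_of_notMem_tsupport h0, Imm.D_eq_zero_of_notMem h0])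
  · by_contra h0
    exact hs (by simp [gamJ, (hT _ (not_le.1 h0)).1, (hT _ (not_le.1 h0)).2])
  have l2 := ge_of_tendsto l1 (by
    filter_upwards [ev_hF hs hε T] with j hj
    have hu := (hs.adm j).sm
    have := stab_graph hP hF hs.smh hk hu (hz.mul (hu.comp hη)) (hs.pos j).le (hs.eq j) hhk
      fun p hp => hj p (not_lt.1 fun h0 => hp (by simp [(hT _ h0).1]))
    simpa only [gam_graph hu hz hη, ef_graph hu hF] using this)
  have i1 := intg_eta cη fun t ht => (hT t ht).1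
  have i2 := intg_eta cη' fun t ht => (hT t ht).2
  have cz' := hN.sm.continuous
  have cF' := (hF.res loc).continuous
  have j1 : Integrable (fun q : M.Sig 𝒰 u => z q ^ 2 * Real.exp (F q)) N.mu :=
    Imm.integrable_of_support hN.cs (by fun_prop) fun q hq => by
      rw [image_eq_zero_of_notMem_tsupport (f := fun q : M.Sig 𝒰 u => z q) hq]; simp
  have j2 : Integrable (fun q : M.Sig 𝒰 u => (2 * N.pre.gam (fun q => z q) (fun q => z q) q +
      (N.pre.EF (fun q => F q) q - (M.pre.EF F q + h q ^ 2 - 2 * k q)) * z q ^ 2) *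
        Real.exp (F q)) N.mu := by
    refine Imm.integrable_of_support hN.cs (((continuous_const.mul (hN.sm.gam hN.sm).continuous).add
      (((hF.res loc).EF.continuous.sub (cG.comp continuous_subtype_val)).mul (cz'.pow 2))).mul
        (by fun_prop)) fun q hq => ?_
    rw [image_eq_zero_of_notMem_tsupport (f := fun q : M.Sig 𝒰 u => z q) hq, Imm.gam_apply]
    simp [Imm.D_eq_zero_of_notMem hq]
  have j0 : 0 ≤ ∫ q : M.Sig 𝒰 u, z q ^ 2 * Real.exp (F q) ∂N.mu :=
    integral_nonneg fun q => by positivity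
  have e1 : ∀ q : M.Sig 𝒰 u, ∫ t, (2 * gamJ (N.cylP q) (z q) (η t) (deriv η t)
      (fun b => M.pre.D b z q) + (efJ (N.cylP q) (N.cylB q) (fun b => M.pre.D b F q)
      (fun e b => M.pre.D e (M.pre.D b F) q) - (M.pre.EF F q + h q ^ 2 - 2 * k q) + ε) *
      (z q * η t) ^ 2) * Real.exp (F q) =
      (∫ t, η t ^ 2) * ((2 * N.pre.gam (fun q => z q) (fun q => z q) q +
        (N.pre.EF (fun q => F q) q - (M.pre.EF F q + h q ^ 2 - 2 * k q)) * z q ^ 2) *
          Real.exp (F q)) +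
      ((∫ t, η t ^ 2) * ε + (∫ t, deriv η t ^ 2) * 2) * (z q ^ 2 * Real.exp (F q)) := fun q => by
    refine (integral_congr_ae (Eventually.of_forall fun t => ?_)).trans
      ((intg_lin i1 i2 ((2 * N.pre.gam (fun q => z q) (fun q => z q) q +
        (N.pre.EF (fun q => F q) q - (M.pre.EF F q + h q ^ 2 - 2 * k q) + ε) * z q ^ 2) *
          Real.exp (F q)) (2 * (z q ^ 2 * Real.exp (F q)))).trans (by ring))
    have a1 := gam_cyl loc hz (η t) (deriv η t) q
    have a2 := ef_cyl loc hF q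
    rw [a1, a2]
    ring
  simp only [e1] at l2
  rw [integral_add (j2.const_mul _) (j1.const_mul _), integral_const_mul, integral_const_mul] at l2
  refine le_of_mul_le_mul_left ?_ ha
  nlinarith [mul_le_mul_of_nonneg_right hb j0]

end Lm

theorem lim_of (hN : NetStmt) (hV : ConvStmt) (hP : PicStmt) (hS : SheetStmt) : LimStmt := by
  intro m ι _ _ X _ _ _ _ _ _ M F h Λ 𝒰 u τ s hi hF hs k hk hhk
  obtain ⟨N, hx, hext, hc⟩ := hV m ι X M F h Λ 𝒰 u τ s hi hF hs
  obtain ⟨hB, hnet⟩ := hN m ι X M F h Λ 𝒰 u τ s hi hF hs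
  obtain ⟨C, hC0, hC⟩ := hS (m + 1) ι X M F hi hF Λ
  refine ⟨N, hx, hB, fun p hp => hp.1, hnet,
    ⟨C, Lm.lim_H hc hB hC0 fun j => hC _ (hs.adm j)⟩, fun z hz => ?_⟩
  obtain ⟨z', hz', hd, e⟩ := hext z hz
  obtain rfl : (fun q : M.Sig 𝒰 u => z' q) = z := funext e
  refine le_of_forall_pos_le_add fun δ hδ => ?_
  have j0 : 0 ≤ ∫ q : M.Sig 𝒰 u, z' q ^ 2 * Real.exp (F q) ∂N.mu :=
    integral_nonneg fun q => by positivity
  refine (Lm.lim_form hP hc hx hF hs hk hhk hz' hd hz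
    (ε := δ / (3 * (∫ q : M.Sig 𝒰 u, z' q ^ 2 * Real.exp (F q) ∂N.mu) + 1))
    (by positivity)).trans (add_le_add le_rfl ?_)
  rw [div_mul_eq_mul_div, div_le_iff₀ (by positivity)]
  nlinarith

end Crest.Agent.N222

end
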